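import Crest.Agent.N334.AC.Iface
import Crest.Agent.N334.End.Min
import Crest.Agent.N334.AC.Geo
import Crest.Agent.N334.AC.Mat

-- ▼ part N334/AC/E/Defs
section

/-!
# Row 334, S0520, part E (helper20): definitions and statements

Chain: `OutStmt → Tight` (E/Alg, E/Ball, E/Digit, E/Chain) `→ FinUI` (E/Pois) `→ UI` (E/Vol)
`→ ACv` a.s. (E/ACd) `→` density (E/Dens); assembled in E/Main.
-/

set_option autoImplicit false

open MeasureTheory Finset Filter Topology

namespace Crest.Agent.N334.AC.E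

open Crest.MathPhysics Crest.MathPhysics.Anderson

/-- the open energy window -/
def Win (d : ℕ) : Set ℝ := Set.Ioo (-2 * (d : ℝ) + 1 / 400) (-2 * (d : ℝ) + 1 / 100)

section Abstract

variable {ι : Type} [Fintype ι] [DecidableEq ι]

/-- random values `σ (2 ω_y - 1) - z` on `C`, fixed values `wb` off `C` -/
noncomputable def wr (σ : ℝ) (z : ℂ) (wb : ι → ℂ) (C : Finset ι) (ω : ι → unitInterval) : ι → ℂ :=
  fun y => if y ∈ C then ((σ * (2 * (ω y : ℝ) - 1) : ℝ) : ℂ) - z else wb y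

/-- conductance from `x` (opened with the value `-i`) to the set `S` -/
noncomputable def cnd (A : Matrix ι ι ℂ) (w : ι → ℂ) (S : Finset ι) (x : ι) : ℝ :=
  ∑ b ∈ S, gam w b * ‖Gm A (Function.update w x (-Complex.I)) b x‖ ^ 2

end Abstract

section Torus

variable {d M : ℕ} [NeZero M]

/-- diagonal of the torus system at the spectral parameter `z` -/
noncomputable def wz (σ : ℝ) (w0 z : ℂ) (ω : Tor d M → unitInterval) : Tor d M → ℂ :=
  wr σ z (fun _ => w0 - z) (absb d M)ᶜ ω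

/-- Green function of the torus system at the origin -/
noncomputable def gM (σ : ℝ) (w0 z : ℂ) (ω : Tor d M → unitInterval) : ℂ :=
  Gm (hop d M) (wz σ w0 z ω) 0 0

/-- conductance of the site `x` to the absorber -/
noncomputable def cM (σ : ℝ) (w0 z : ℂ) (ω : Tor d M → unitInterval) (x : Tor d M) : ℝ :=
  cnd (hop d M) (wz σ w0 z ω) (absb d M) x

end Torus

/-- the conductance of the origin is tight away from zero near the real axis -/
def Tight (d : ℕ) (σ : ℝ) : Prop :=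
  ∀ ε > (0 : ℝ), ∃ δ > (0 : ℝ), ∀ a ∈ Win d, ∀ M₀ : ℕ, ∃ (M : ℕ) (_ : NeZero M), M₀ ≤ M ∧
    ∃ w0 : ℂ, ‖w0‖ ≤ 1 ∧ w0.im ≤ 0 ∧ ∀ E ∈ Win d, |E - a| ≤ σ ^ 2 →
      ∀ᶠ z in 𝓝[{z : ℂ | 0 < z.im}] (E : ℂ),
        siteMeasure (Tor d M) {ω | cM σ w0 z ω 0 < δ} ≤ ENNReal.ofReal ε

/-- uniform integrability in finite volume -/
def FinUI (d : ℕ) (σ : ℝ) : Prop :=
  ∀ ε > (0 : ℝ), ∃ K : ℝ, ∀ a ∈ Win d, ∀ᶠ η in 𝓝[>] (0 : ℝ), ∀ M₀ : ℕ,
    ∃ (M : ℕ) (_ : NeZero M), M₀ ≤ M ∧ ∃ w0 : ℂ, ‖w0‖ ≤ 1 ∧ w0.im ≤ 0 ∧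
      ∫⁻ ω, ENNReal.ofReal ((gM σ w0 ⟨a, η⟩ ω).im - K) ∂siteMeasure (Tor d M) ≤ ENNReal.ofReal ε

/-- uniform integrability of `Im G(x, x; a + iη)` on `ℤ^d` -/
def UI (d : ℕ) (σ : ℝ) (x : Fin d → ℤ) : Prop :=
  ∀ ε > (0 : ℝ), ∃ K : ℝ, ∀ a ∈ Win d, ∀ᶠ η in 𝓝[>] (0 : ℝ),
    ∫⁻ ω, ENNReal.ofReal ((End.g (-1) σ a η ω x x).im - K) ∂siteMeasure (Fin d → ℤ) ≤
      ENNReal.ofReal ε

/-- `ε`-`δ` absolute continuity on `I` of the spectral measure of `ψ` -/
def ACv {d : ℕ} (H : Ell2 d →L[ℂ] Ell2 d) (I : Set ℝ) (ψ : Ell2 d) : Prop :=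
  ∀ ε > (0 : ℝ), ∃ δ > (0 : ℝ), ∀ f : ℝ → ℝ, Continuous f → (∀ t, 0 ≤ f t ∧ f t ≤ 1) →
    Function.support f ⊆ I → ∫ t, f t ≤ δ → End.qf H ψ f ≤ ε

/-- leaf E/Digit: from digit fields to the product measure -/
def DigitStmt : Prop :=
  ∀ (d M : ℕ) [NeZero M] (σ E : ℝ) (w0 : ℂ) (κ : ℝ) (R N : ℕ) (ε : ℝ), 0 < N →
    (∀ r : Tor d M → ℝ, (∀ x, 0 ≤ r x ∧ r x ≤ 1) →
      badFrac σ E w0 κ R N r (fun _ => range N) ≤ ε) →
    ∀ S : Set (Tor d M → unitInterval), MeasurableSet S →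
      (∀ ω ∈ S, ¬ Good E w0 κ R fun x => σ * (2 * (ω x : ℝ) - 1)) →
      siteMeasure (Tor d M) S ≤ ENNReal.ofReal ε

/-- spectral averaging at the origin (E/Ball) -/
def EbStmt : Prop :=
  ∀ (d M : ℕ) [NeZero M] (σ : ℝ) (w0 z : ℂ) (δ : ℝ), 0 < σ → w0.im ≤ 0 → 0 < z.im → 0 < δ →
    ∫⁻ ω, ENNReal.ofReal ((gM σ w0 z ω).im - δ⁻¹) ∂siteMeasure (Tor d M) ≤
      ENNReal.ofReal (Real.pi / (2 * σ)) * siteMeasure (Tor d M) {ω | cM σ w0 z ω 0 < δ}

/-- leaf E/Pois: mean value property of the Herglotz function `gM` -/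
def PoisStmt : Prop := EbStmt → ∀ (d : ℕ) (σ : ℝ), 0 < σ → Tight d σ → FinUI d σ

/-- leaf E/Vol: infinite-volume limit at fixed `η` -/
def VolStmt : Prop := ∀ (d : ℕ) (σ : ℝ), 0 < σ → FinUI d σ → ∀ x, UI d σ x

/-- leaf E/ACd: uniform integrability gives absolute continuity -/
def ACdStmt : Prop := ∀ (d : ℕ) (σ : ℝ), 0 < σ → ∀ x, UI d σ x →
  ∀ᵐ ω ∂siteMeasure (Fin d → ℤ), ACv (End.Hm (-1) σ ω) (Win d) (End.dl x)

/-- leaf E/Dens: the density -/
def DensStmt : Prop := ∀ (d : ℕ) (H : Ell2 d →L[ℂ] Ell2 d), IsSelfAdjoint H → ∀ α β : ℝ,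
  (∀ x, ACv H (Set.Ioo α β) (End.dl x)) → ∀ ψ : Ell2 d,
    ∃ g : ℝ → ℝ, IntegrableOn g (Set.Ioo α β) ∧ ∀ f : ℝ → ℝ, Continuous f →
      Function.support f ⊆ Set.Ioo α β →
        inner ℂ ψ (cfc (fun z : ℂ => ((f z.re : ℝ) : ℂ)) H ψ) =
          ((∫ E in Set.Ioo α β, f E * g E : ℝ) : ℂ)

end Crest.Agent.N334.AC.E
end

-- ▼ part N334/AC/E/Alg
section

/-!
# Row 334, S0520, part E (helper20): matrix algebra for strictly dissipative systems
-/

set_option autoImplicit false

open MeasureTheory Finset Matrix Complex Function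
open scoped ComplexConjugate

namespace Crest.Agent.N334.AC.E

section Abstract

variable {ι : Type} [Fintype ι] [DecidableEq ι] {A : Matrix ι ι ℂ} {w : ι → ℂ}

lemma Hm_mulVec (A : Matrix ι ι ℂ) (w u : ι → ℂ) (a : ι) :
    (Hm A w *ᵥ u) a = ∑ b, A a b * u b + w a * u a := by
  rw [Hm, add_mulVec, Pi.add_apply, mulVec_diagonal]; rfl

/-- `Im ⟨u, (A + w) u⟩ = -∑ γ |u|²` -/
lemma im_form (hA : A.IsHermitian) (w u : ι → ℂ) :
    (star u ⬝ᵥ Hm A w *ᵥ u).im = -∑ a, gam w a * ‖u a‖ ^ 2 := by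
  have hA0 : (star u ⬝ᵥ A *ᵥ u).im = 0 := by
    have h2 : star (star u ⬝ᵥ A *ᵥ u) = star u ⬝ᵥ A *ᵥ u := by
      rw [← star_dotProduct_star, star_star, star_mulVec, hA.eq, ← dotProduct_mulVec]
    exact Complex.conj_eq_iff_im.1 h2
  rw [Hm, add_mulVec, dotProduct_add, add_im, hA0, zero_add, dotProduct, im_sum,
    ← sum_neg_distrib]
  refine sum_congr rfl fun a _ => ?_
  rw [mulVec_diagonal, Pi.star_apply, mul_left_comm, star_def, Complex.conj_mul']
  simp [gam, ← ofReal_pow]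

lemma adm_pos (hs : A.IsSymm) (hh : A.IsHermitian) (hw : ∀ x, 0 < gam w x) : Adm A w := by
  refine ⟨hs, hh, fun x => (hw x).le, isUnit_iff_ne_zero.2 fun h0 => ?_⟩
  obtain ⟨u, hu, h1⟩ := Matrix.exists_mulVec_eq_zero_iff.2 h0
  have h2 := im_form hh w u
  rw [h1, dotProduct_zero, zero_im, eq_comm, neg_eq_zero,
    sum_eq_zero_iff_of_nonneg fun a _ => mul_nonneg (hw a).le (sq_nonneg _)] at h2
  exact hu (funext fun a => by simpa [(hw a).ne'] using h2 a (mem_univ a))

lemma row_eq (h : Adm A w) (a b : ι) :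
    ∑ c, A a c * Gm A w c b + w a * Gm A w a b = if a = b then 1 else 0 := by
  have h1 := congrFun (congrFun (mul_nonsing_inv _ h.inv) a) b
  rw [one_apply] at h1
  rw [← h1, ← Hm_mulVec A w (fun c => Gm A w c b) a]; rfl

lemma G_symm (hs : A.IsSymm) (w : ι → ℂ) (a b : ι) : Gm A w a b = Gm A w b a := by
  have : (Gm A w)ᵀ = Gm A w := by
    unfold Gm Hm
    rw [transpose_nonsing_inv, transpose_add, hs.eq, diagonal_transpose]
  exact (congrFun (congrFun this b) a)

/-- Ward identity -/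
lemma ward (h : Adm A w) (b : ι) : ∑ a, gam w a * ‖Gm A w a b‖ ^ 2 = (Gm A w b b).im := by
  have h1 := im_form h.herm w fun a => Gm A w a b
  have h2 : Hm A w *ᵥ (fun a => Gm A w a b) = Pi.single b 1 := funext fun a => by
    rw [Hm_mulVec, row_eq h, Pi.single_apply]
  rw [h2, dotProduct_single, mul_one, Pi.star_apply, star_def, conj_im, neg_inj] at h1
  exact h1.symm

lemma ward_sub (h : Adm A w) (S : Finset ι) (b : ι) :
    ∑ a ∈ S, gam w a * ‖Gm A w a b‖ ^ 2 ≤ (Gm A w b b).im :=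
  ward h b ▸ sum_le_sum_of_subset_of_nonneg (subset_univ S) fun a _ _ =>
    mul_nonneg (h.diss a) (sq_nonneg _)

lemma norm_diag_le (h : Adm A w) {b : ι} {κ : ℝ} (hκ : 0 < κ) (hb : κ ≤ gam w b) :
    ‖Gm A w b b‖ ≤ κ⁻¹ := by
  have h1 := ward_sub h {b} b
  rw [sum_singleton] at h1
  have h2 := (h1.trans (im_le_norm _))
  rcases (norm_nonneg (Gm A w b b)).eq_or_lt with h0 | h0
  · rw [← h0]; positivity
  · rw [← one_div, le_div_iff₀ hκ]
    nlinarith [mul_le_mul_of_nonneg_right hb (sq_nonneg ‖Gm A w b b‖)]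

/-- rank-one resolvent identity -/
lemma rank1 (h : Adm A w) {u : ι} {t : ℂ} (h' : Adm A (update w u t)) (a b : ι) :
    Gm A (update w u t) a b = Gm A w a b - (t - w u) * Gm A w a u * Gm A (update w u t) u b := by
  have h1 : Hm A (update w u t) = Hm A w + diagonal (Pi.single u (t - w u)) := by
    rw [Hm, Hm, add_assoc, diagonal_add]
    congr 2; funext y
    by_cases hy : y = u
    · subst hy; simp
    · simp [hy]
  have h2 : Gm A w * (Hm A (update w u t) * Gm A (update w u t)) = Gm A w := by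
    rw [Gm, Gm, mul_nonsing_inv _ h'.inv, Matrix.mul_one]
  rw [h1, Matrix.add_mul, Matrix.mul_add, ← Matrix.mul_assoc, Gm, nonsing_inv_mul _ h.inv,
    Matrix.one_mul, ← Matrix.mul_assoc] at h2
  have h3 := congrFun (congrFun h2 a) b
  rw [Matrix.add_apply, Matrix.mul_apply, sum_eq_single u (fun c _ hc => by simp [hc]) (by simp),
    mul_diagonal, Pi.single_eq_same] at h3
  simp only [Gm] at h3 ⊢
  linear_combination h3

lemma rank1_col (h : Adm A w) {u : ι} {t : ℂ} (h' : Adm A (update w u t)) (b : ι) :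
    Gm A (update w u t) u b * (1 + (t - w u) * Gm A w u u) = Gm A w u b := by
  linear_combination rank1 h h' u b

lemma rank1_ne (h : Adm A w) {u : ι} {t : ℂ} (h' : Adm A (update w u t)) :
    1 + (t - w u) * Gm A w u u ≠ 0 := by
  have h1 := rank1 h' (u := u) (t := w u) (by simpa using h) u u
  have h2 := rank1 h h' u u
  rw [update_idem, update_eq_self, update_self] at h1
  intro h0
  have h3 : Gm A w u u = 0 := by rw [← rank1_col h h' u, h0, mul_zero]
  simp [h3] at h0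

lemma rank1_mul (h : Adm A w) {u : ι} {t : ℂ} (h' : Adm A (update w u t)) (a b : ι) :
    Gm A (update w u t) a b * (1 + (t - w u) * Gm A w u u) = Gm A w a b +
      (t - w u) * (Gm A w u u * Gm A w a b - Gm A w a u * Gm A w u b) := by
  linear_combination (1 + (t - w u) * Gm A w u u) * rank1 h h' a b -
    (t - w u) * Gm A w a u * rank1_col h h' b

omit [Fintype ι] in
lemma gam_update (w : ι → ℂ) (u : ι) (t : ℂ) (a : ι) :
    gam (update w u t) a = if a = u then -t.im else gam w a := by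
  by_cases h : a = u
  · subst h; simp [gam]
  · simp [gam, h]

omit [Fintype ι] in
lemma gam_update_pos (hw : ∀ x, 0 < gam w x) (u : ι) {t : ℂ} (ht : t.im < 0) (a : ι) :
    0 < gam (update w u t) a := by
  rw [gam_update]; split_ifs
  · linarith
  · exact hw a

/-- `Im G(x,x) ≤ 1 / cnd` -/
lemma im_mul_cnd_le (hs : A.IsSymm) (hh : A.IsHermitian) (hw : ∀ x, 0 < gam w x) (S : Finset ι)
    (x : ι) : (Gm A w x x).im * cnd A w S x ≤ 1 := by
  have h := adm_pos hs hh hw
  have h' := adm_pos hs hh (gam_update_pos hw x (t := -I) (by simp))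
  have h1 := ward_sub h S x
  have h2 := norm_diag_le h' (b := x) one_pos (by simp [gam_update])
  have h3 := rank1_col h h' x
  have h4 : cnd A w S x * ‖Gm A w x x‖ ^ 2 =
      ‖Gm A (update w x (-I)) x x‖ ^ 2 * ∑ a ∈ S, gam w a * ‖Gm A w a x‖ ^ 2 := by
    rw [cnd, sum_mul, mul_sum]
    refine sum_congr rfl fun a _ => ?_
    rw [G_symm hs w a x, ← rank1_col h h' a, G_symm hs _ a x]
    conv_lhs => rw [← h3]
    simp only [norm_mul]; ring
  have h5 : (Gm A w x x).im ^ 2 ≤ ‖Gm A w x x‖ ^ 2 := by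
    rw [← sq_abs]; exact pow_le_pow_left₀ (abs_nonneg _) (abs_im_le_norm _) 2
  have h6 : 0 ≤ cnd A w S x := sum_nonneg fun a _ => mul_nonneg (hw a).le (sq_nonneg _)
  have h7 : 0 ≤ ∑ a ∈ S, gam w a * ‖Gm A w a x‖ ^ 2 :=
    sum_nonneg fun a _ => mul_nonneg (hw a).le (sq_nonneg _)
  have h8 : cnd A w S x * ‖Gm A w x x‖ ^ 2 ≤ (Gm A w x x).im := by
    rw [h4]
    refine (mul_le_of_le_one_left h7 ?_).trans h1
    exact pow_le_one₀ (norm_nonneg _) (by simpa using h2)
  rcases (h7.trans h1).eq_or_lt with h0 | h0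
  · rw [← h0]; simp
  · nlinarith [mul_le_mul_of_nonneg_left h5 h6]

/-- two adjacent open sites surrounded by strong absorbers -/
lemma base (h : Adm A w) {c : ℝ} (hc : ∀ a, ∑ b, ‖A a b‖ ≤ c) {x y : ι} (hxy : x ≠ y)
    (hA : 1 ≤ ‖A y x‖) (hx : w x = -I) (hy : w y = -I)
    (hN : ∀ u, u ≠ x → u ≠ y → (A x u ≠ 0 ∨ A y u ≠ 0) → 4 * (c + 1) ^ 4 ≤ gam w u) :
    (4 * (c + 1) ^ 2)⁻¹ ≤ ‖Gm A w y x‖ := by
  have hc0 : 0 ≤ c := (sum_nonneg fun _ _ => norm_nonneg _).trans (hc x)
  have h1 : ‖Gm A w x x‖ ≤ 1 := by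
    simpa using norm_diag_le h (b := x) one_pos (by simp [gam, hx])
  have h2 : ∀ u, u ≠ x → u ≠ y → (A x u ≠ 0 ∨ A y u ≠ 0) →
      ‖Gm A w u x‖ ≤ (2 * (c + 1) ^ 2)⁻¹ := fun u hux huy hu => by
    have h3 := ward_sub h {u} x
    rw [sum_singleton] at h3
    have h4 := (mul_le_mul_of_nonneg_right (hN u hux huy hu) (sq_nonneg _)).trans
      (h3.trans ((im_le_norm _).trans h1))
    rw [← one_div, le_div_iff₀ (by positivity)]
    refine le_of_sq_le_sq ?_ zero_le_one
    nlinarith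
  have h3 : ∀ a, (a = x ∨ a = y) → ‖∑ u ∈ (univ.erase x).erase y, A a u * Gm A w u x‖ ≤
      c * (2 * (c + 1) ^ 2)⁻¹ := fun a ha => by
    refine (norm_sum_le _ _).trans ((sum_le_sum (g := fun u => ‖A a u‖ * (2 * (c + 1) ^ 2)⁻¹)
      fun u hu => ?_).trans ?_)
    · rw [norm_mul]
      by_cases h0 : A a u = 0
      · simp [h0]
      · simp only [mem_erase] at hu
        exact mul_le_mul_of_nonneg_left (h2 u hu.2.1 hu.1 (by
          rcases ha with rfl | rfl
          exacts [Or.inl h0, Or.inr h0])) (norm_nonneg _)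
    · rw [← sum_mul]
      exact mul_le_mul_of_nonneg_right ((sum_le_sum_of_subset_of_nonneg (subset_univ _)
        fun _ _ _ => norm_nonneg _).trans (hc a)) (by positivity)
  have h4 : ∀ a b, ‖A a b‖ ≤ c := fun a b =>
    (single_le_sum (f := fun b => ‖A a b‖) (fun _ _ => norm_nonneg _) (mem_univ b)).trans (hc a)
  have h5 : ∀ a, ∑ u, A a u * Gm A w u x = A a x * Gm A w x x + (A a y * Gm A w y x +
      ∑ u ∈ (univ.erase x).erase y, A a u * Gm A w u x) := fun a => by
    rw [add_sum_erase _ (fun u => A a u * Gm A w u x) (mem_erase.2 ⟨hxy.symm, mem_univ y⟩),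
      add_sum_erase _ (fun u => A a u * Gm A w u x) (mem_univ x)]
  have hr := row_eq h x x
  have hs := row_eq h y x
  rw [h5, hx, if_pos rfl] at hr
  rw [h5, hy, if_neg hxy.symm] at hs
  have h6 := h3 x (Or.inl rfl)
  have h7 := h3 y (Or.inr rfl)
  generalize ∑ u ∈ (univ.erase x).erase y, A x u * Gm A w u x = r at hr h6
  generalize ∑ u ∈ (univ.erase x).erase y, A y u * Gm A w u x = s at hs h7
  generalize Gm A w x x = p at *
  generalize Gm A w y x = q at *
  have e1 : ‖p‖ ≤ (c + 1) * ‖q‖ + ‖s‖ := by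
    have : A y x * p = -(A y y * q) - s + I * q := by linear_combination hs
    have h8 : ‖A y x * p‖ ≤ ‖A y y‖ * ‖q‖ + ‖s‖ + ‖q‖ := by
      rw [this]
      refine (norm_add_le _ _).trans (add_le_add ((norm_sub_le _ _).trans_eq ?_) (by simp))
      simp
    rw [norm_mul] at h8
    nlinarith [norm_nonneg p, mul_le_mul_of_nonneg_right (h4 y y) (norm_nonneg q)]
  have e2 : 1 ≤ (c + 1) * ‖p‖ + c * ‖q‖ + ‖r‖ := by
    have h8 := (norm_add_le _ _).trans' (congrArg norm hr).ge
    have h9 := (norm_add_le (A x x * p) _).trans (add_le_add le_rfl (norm_add_le (A x y * q) r))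
    simp only [norm_one, norm_mul, norm_neg, norm_I] at h8 h9
    nlinarith [mul_le_mul_of_nonneg_right (h4 x x) (norm_nonneg p),
      mul_le_mul_of_nonneg_right (h4 x y) (norm_nonneg q)]
  have e3 : (c + 1) ^ 2 * (2 * (c + 1) ^ 2)⁻¹ = 1 / 2 := by field_simp
  have e4 : 0 < (2 * (c + 1) ^ 2)⁻¹ := by positivity
  rw [inv_le_iff_one_le_mul₀ (by positivity)]
  have e5 := mul_le_mul_of_nonneg_left (e1.trans (add_le_add le_rfl h7)) (by linarith : 0 ≤ c + 1)
  nlinarith [norm_nonneg q, mul_nonneg hc0 (norm_nonneg q), mul_nonneg (sq_nonneg c) (norm_nonneg q)]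

lemma measurable_inv {X : Type} [MeasurableSpace X] {B : X → Matrix ι ι ℂ}
    (hB : ∀ a b, Measurable fun p => B p a b) (a b : ι) : Measurable fun p => (B p)⁻¹ a b := by
  have hd : ∀ {B : X → Matrix ι ι ℂ}, (∀ a b, Measurable fun p => B p a b) →
      Measurable fun p => (B p).det := fun hB => by
    simp only [det_apply']
    exact Finset.measurable_sum _ fun s _ => (Finset.measurable_prod _ fun i _ => hB _ _).const_mul _
  have : (fun p => (B p)⁻¹ a b) = fun p => (B p).det⁻¹ * ((B p).updateRow b (Pi.single a 1)).det :=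
    funext fun p => by rw [Matrix.inv_def, Ring.inverse_eq_inv', Matrix.smul_apply, adjugate_apply]; rfl
  rw [this]
  refine (hd hB).inv.mul (hd fun i j => ?_)
  simp only [updateRow_apply]
  split_ifs
  exacts [measurable_const, hB _ _]

lemma measurable_Gm {X : Type} [MeasurableSpace X] (A : Matrix ι ι ℂ) {w : X → ι → ℂ}
    (hw : ∀ a, Measurable fun p => w p a) (a b : ι) : Measurable fun p => Gm A (w p) a b := by
  refine measurable_inv (fun i j => ?_) a b
  simp only [Hm, Matrix.add_apply, diagonal_apply]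
  split_ifs
  exacts [(hw i).const_add _, measurable_const]

omit [Fintype ι] in
lemma measurable_upd {X : Type} [MeasurableSpace X] {w : X → ι → ℂ}
    (hw : ∀ a, Measurable fun p => w p a) (x : ι) (t : ℂ) (a : ι) :
    Measurable fun p => update (w p) x t a := by
  simp only [update_apply]
  split_ifs
  exacts [measurable_const, hw a]

lemma measurable_cnd {X : Type} [MeasurableSpace X] (A : Matrix ι ι ℂ) {w : X → ι → ℂ}
    (hw : ∀ a, Measurable fun p => w p a) (S : Finset ι) (x : ι) :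
    Measurable fun p => cnd A (w p) S x :=
  Finset.measurable_sum _ fun b _ => (measurable_im.comp (hw b)).neg.mul
    ((measurable_Gm A (measurable_upd hw x _) b x).norm.pow_const 2)

omit [Fintype ι] in
lemma measurable_wr {X : Type} [MeasurableSpace X] (σ : ℝ) {z : X → ℂ} {wb : X → ι → ℂ}
    (C : Finset ι) {ω : X → ι → unitInterval} (hz : Measurable z)
    (hb : ∀ a, Measurable fun p => wb p a) (hω : Measurable ω) (a : ι) :
    Measurable fun p => wr σ (z p) (wb p) C (ω p) a := by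
  simp only [wr]
  split_ifs
  · exact Measurable.sub (by fun_prop) hz
  · exact hb a

omit [Fintype ι] in
lemma wr_pos (σ : ℝ) {z : ℂ} (hz : 0 < z.im) {wb : ι → ℂ} {C : Finset ι}
    (hb : ∀ a, a ∉ C → 0 < gam wb a) (ω : ι → unitInterval) (a : ι) : 0 < gam (wr σ z wb C ω) a := by
  by_cases h : a ∈ C
  · simpa [gam, wr, h] using hz
  · simpa [gam, wr, h] using hb a h

end Abstract

section Torus

variable {d M : ℕ} [NeZero M]

lemma hop_symm : (hop d M).IsSymm := by
  ext x y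
  simp only [transpose_apply, hop, neg_inj]
  refine sum_congr rfl fun j _ => ?_
  rw [add_comm]
  simp only [@eq_comm _ y, sub_eq_iff_eq_add, @eq_comm _ x]

lemma hop_herm : (hop d M).IsHermitian := by
  ext x y
  rw [conjTranspose_apply, hop_symm.apply]
  simp only [hop, star_neg, star_sum, star_add, apply_ite star, star_one, star_zero]

lemma hop_row (x : Tor d M) : ∑ y, ‖hop d M x y‖ ≤ 2 * d := by
  refine (sum_le_sum (g := fun y => ∑ j : Fin d, ((if y = x + Pi.single j 1 then (1 : ℝ) else 0) +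
    if y = x - Pi.single j 1 then 1 else 0)) fun y _ => ?_).trans_eq ?_
  · rw [hop, norm_neg]
    refine norm_sum_le_of_le _ fun j _ => (norm_add_le _ _).trans_eq ?_
    split_ifs <;> simp
  · rw [sum_comm]; simp [sum_add_distrib]; ring

lemma wz_pos (σ : ℝ) {w0 z : ℂ} (h0 : w0.im ≤ 0) (hz : 0 < z.im) (ω : Tor d M → unitInterval)
    (a : Tor d M) : 0 < gam (wz σ w0 z ω) a :=
  wr_pos σ hz (fun _ _ => by simp only [gam, sub_im]; linarith) ω a

lemma wz_adm (σ : ℝ) {w0 z : ℂ} (h0 : w0.im ≤ 0) (hz : 0 < z.im) (ω : Tor d M → unitInterval) :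
    Adm (hop d M) (wz σ w0 z ω) := adm_pos hop_symm hop_herm (wz_pos σ h0 hz ω)

lemma le_gam_wz (σ : ℝ) {w0 : ℂ} (h0 : w0.im ≤ 0) (z : ℂ) (ω : Tor d M → unitInterval)
    (a : Tor d M) : z.im ≤ gam (wz σ w0 z ω) a := by
  simp only [gam, wz, wr]
  split_ifs <;> simp [h0]

lemma measurable_wz {X : Type} [MeasurableSpace X] (σ : ℝ) (w0 : ℂ) {z : X → ℂ}
    {ω : X → Tor d M → unitInterval} (hz : Measurable z) (hω : Measurable ω) (a : Tor d M) :
    Measurable fun p => wz σ w0 (z p) (ω p) a :=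
  measurable_wr σ _ hz (fun _ => hz.const_sub w0) hω a

lemma measurable_gM {X : Type} [MeasurableSpace X] (σ : ℝ) (w0 : ℂ) {z : X → ℂ}
    {ω : X → Tor d M → unitInterval} (hz : Measurable z) (hω : Measurable ω) :
    Measurable fun p => gM σ w0 (z p) (ω p) := measurable_Gm _ (measurable_wz σ w0 hz hω) 0 0

lemma measurable_cM {X : Type} [MeasurableSpace X] (σ : ℝ) (w0 : ℂ) {z : X → ℂ}
    {ω : X → Tor d M → unitInterval} (hz : Measurable z) (hω : Measurable ω) (x : Tor d M) :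
    Measurable fun p => cM σ w0 (z p) (ω p) x := measurable_cnd _ (measurable_wz σ w0 hz hω) _ x

lemma zero_notMem_absb : (0 : Tor d M) ∉ absb d M := by simp [absb]

end Torus

end Crest.Agent.N334.AC.E
end

-- ▼ part N334/AC/E/Ball
section

/-!
# Row 334, S0520, part E (helper20): one-site small-ball estimates
-/

set_option autoImplicit false
set_option linter.unusedSectionVars false

open MeasureTheory Finset Matrix Complex Function
open scoped ENNReal

namespace Crest.Agent.N334.AC.E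

open Crest.MathPhysics.Anderson

lemma vol_le_of_diam {S : Set unitInterval} {D : ℝ}
    (h : ∀ t ∈ S, ∀ t' ∈ S, |(t : ℝ) - t'| ≤ D) : volume S ≤ ENNReal.ofReal (2 * D) := by
  rcases S.eq_empty_or_nonempty with rfl | ⟨t, ht⟩
  · simp
  refine (measure_mono (t := Subtype.val ⁻¹' Set.Icc ((t : ℝ) - D) (t + D)) fun s hs => ?_).trans ?_
  · have := abs_le.1 (h s hs t ht)
    exact ⟨by linarith, by linarith⟩
  · rw [unitInterval.measurePreserving_coe.measure_preimage measurableSet_Icc.nullMeasurableSet]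
    refine (Measure.restrict_apply_le _ _).trans_eq ?_
    rw [Real.volume_Icc]; congr 1; ring

/-- the value at a closed site -/
noncomputable def sv (σ : ℝ) (z : ℂ) (t : unitInterval) : ℂ := ((σ * (2 * (t : ℝ) - 1) : ℝ) : ℂ) - z

lemma norm_sv_sub {σ : ℝ} (hσ : 0 < σ) (z : ℂ) (t t' : unitInterval) :
    ‖sv σ z t - sv σ z t'‖ = 2 * σ * |(t : ℝ) - t'| := by
  rw [sv, sv, sub_sub_sub_cancel_right, ← ofReal_sub, norm_real, Real.norm_eq_abs,
    show σ * (2 * (t : ℝ) - 1) - σ * (2 * t' - 1) = 2 * σ * (t - t') by ring, abs_mul,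
    abs_of_pos (by positivity)]

lemma norm_sv_le {σ : ℝ} (hσ : 0 < σ) (z : ℂ) (t : unitInterval) : ‖sv σ z t‖ ≤ σ + ‖z‖ := by
  refine (norm_sub_le _ _).trans (add_le_add ?_ le_rfl)
  rw [norm_real, Real.norm_eq_abs, abs_le]
  constructor <;> nlinarith [t.2.1, t.2.2]

lemma sv_im (σ : ℝ) (z : ℂ) (t : unitInterval) : (sv σ z t).im = -z.im := by simp [sv]

lemma ball_affine {σ L θ a : ℝ} (hσ : 0 < σ) (hθ : θ ≤ 1 / 2) (ha : 0 < a) {z c α β : ℂ}
    (hL : ∀ t, ‖sv σ z t - c‖ ≤ L) (hα : a ≤ ‖α‖) :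
    volume {t | ‖α + (sv σ z t - c) * β‖ < θ * a} ≤ ENNReal.ofReal (4 * θ * L / σ) := by
  refine (vol_le_of_diam (D := 2 * θ * L / σ) fun t ht t' ht' => ?_).trans_eq (by ring_nf)
  simp only [Set.mem_ofPred_eq] at ht ht'
  have h1 : 2 * σ * |(t : ℝ) - t'| * ‖β‖ ≤ 2 * (θ * a) := by
    rw [← norm_sv_sub hσ z, ← norm_mul, show (sv σ z t - sv σ z t') * β =
      (α + (sv σ z t - c) * β) - (α + (sv σ z t' - c) * β) by ring]
    linarith [norm_sub_le (α + (sv σ z t - c) * β) (α + (sv σ z t' - c) * β)]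
  have h2 : ‖α‖ ≤ θ * a + L * ‖β‖ := by
    have := norm_sub_le (α + (sv σ z t - c) * β) ((sv σ z t - c) * β)
    rw [add_sub_cancel_right, norm_mul] at this
    linarith [mul_le_mul_of_nonneg_right (hL t) (norm_nonneg β)]
  have hL0 : 0 ≤ L := (norm_nonneg _).trans (hL t)
  have h3 : a / 2 ≤ L * ‖β‖ := by nlinarith
  rw [le_div_iff₀ hσ]
  refine le_of_mul_le_mul_right ?_ ha
  nlinarith [mul_le_mul_of_nonneg_left h3 (by positivity : 0 ≤ 2 * σ * |(t : ℝ) - t'|),
    mul_le_mul_of_nonneg_left h1 hL0]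

variable {ι : Type} [DecidableEq ι]

lemma lint_update_le (x : ι) {f k : (ι → unitInterval) → ℝ≥0∞} (hf : Measurable f)
    (H : ∀ ω, ∫⁻ t, f (update ω x t) ≤ k ω) :
    ∫⁻ ω, f ω ∂siteMeasure ι ≤ ∫⁻ ω, k ω ∂siteMeasure ι := by
  rw [← (Soft.measurePreserving_update x).lintegral_comp hf,
    lintegral_prod _ (hf.fun_comp (Soft.measurePreserving_update x).measurable).aemeasurable]
  exact lintegral_mono H

lemma prob_le_of_update (x : ι) {p : (ι → unitInterval) → Prop} {c : ℝ≥0∞}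
    (H : ∀ ω, volume {t | p (update ω x t)} ≤ c) (hS : MeasurableSet {ω | p ω}) :
    siteMeasure ι {ω | p ω} ≤ c := by
  rw [← lintegral_indicator_one hS]
  refine (lint_update_le x (measurable_one.indicator hS) (k := fun _ => c) fun ω => ?_).trans_eq
    (by simp)
  refine le_trans (le_of_eq ?_) (H ω)
  rw [← lintegral_indicator_one (s := {t | p (update ω x t)}) (measurable_update ω hS)]
  rfl

variable {σ L θ : ℝ} {z : ℂ} {wb : ι → ℂ} {C : Finset ι} {u : ι}

lemma wr_update (hu : u ∉ C) (ω : ι → unitInterval) (t : unitInterval) :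
    wr σ z wb C (update ω u t) = wr σ z wb C ω := by
  funext y
  simp only [wr]
  split_ifs with h
  · rw [update_of_ne (by rintro rfl; exact hu h)]
  · rfl

lemma wr_insert (ω : ι → unitInterval) :
    wr σ z wb (insert u C) ω = update (wr σ z wb C ω) u (sv σ z (ω u)) := by
  funext y
  by_cases h : y = u
  · subst h; simp [wr, sv]
  · simp [wr, h]

lemma wr_insert_update (hu : u ∉ C) (ω : ι → unitInterval) (t : unitInterval) :
    wr σ z wb (insert u C) (update ω u t) = update (wr σ z wb C ω) u (sv σ z t) := by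
  rw [wr_insert, wr_update hu, update_self]

lemma wr_notMem (hu : u ∉ C) (ω : ι → unitInterval) : wr σ z wb C ω u = wb u := if_neg hu

variable [Fintype ι] {A : Matrix ι ι ℂ}

lemma meas_wr (a : ι) : Measurable fun ω => wr σ z wb C ω a :=
  measurable_wr σ (z := fun _ => z) (wb := fun _ => wb) C (ω := fun ω => ω) measurable_const
    (fun _ => measurable_const) measurable_id a

lemma meas_G (a b : ι) : Measurable fun ω => Gm A (wr σ z wb C ω) a b := measurable_Gm A meas_wr a b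

/-- standing hypotheses -/
structure Hyp (A : Matrix ι ι ℂ) (σ L θ : ℝ) (z : ℂ) (wb : ι → ℂ) : Prop where
  hs : A.IsSymm
  hh : A.IsHermitian
  hσ : 0 < σ
  hz : 0 < z.im
  hb : ∀ a, 0 < gam wb a
  h0 : 0 < θ
  h1 : θ ≤ 1 / 2
  hL : 1 ≤ L

/-- `u` is an open port -/
structure Port (σ L : ℝ) (z : ℂ) (wb : ι → ℂ) (u : ι) : Prop where
  one : 1 ≤ gam wb u
  le : ∀ t, ‖sv σ z t - wb u‖ ≤ L

lemma Hyp.pos (H : Hyp A σ L θ z wb) (C : Finset ι) (ω : ι → unitInterval) (a : ι) :
    0 < gam (wr σ z wb C ω) a := wr_pos σ H.hz (fun a _ => H.hb a) ω a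

lemma Hyp.adm (H : Hyp A σ L θ z wb) (C : Finset ι) (ω : ι → unitInterval) :
    Adm A (wr σ z wb C ω) := adm_pos H.hs H.hh (H.pos C ω)

lemma Hyp.adm' (H : Hyp A σ L θ z wb) (C : Finset ι) (ω : ι → unitInterval) (u : ι)
    (t : unitInterval) : Adm A (update (wr σ z wb C ω) u (sv σ z t)) :=
  adm_pos H.hs H.hh (gam_update_pos (H.pos C ω) u (by rw [sv_im]; linarith [H.hz]))

lemma Hyp.den_le (H : Hyp A σ L θ z wb) (hu : u ∉ C) (hp : Port σ L z wb u)
    (ω : ι → unitInterval) (t : unitInterval) :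
    ‖1 + (sv σ z t - wb u) * Gm A (wr σ z wb C ω) u u‖ ≤ 1 + L := by
  have h1 := norm_diag_le (H.adm C ω) (b := u) one_pos (by
    simpa only [gam, wr_notMem hu] using hp.one)
  refine (norm_add_le _ _).trans ?_
  rw [norm_one, norm_mul]
  nlinarith [hp.le t, norm_nonneg (sv σ z t - wb u), norm_nonneg (Gm A (wr σ z wb C ω) u u),
    inv_one (G := ℝ)]

/-- closing one port keeps an entry away from zero -/
lemma Hyp.close (H : Hyp A σ L θ z wb) (hu : u ∉ C) (hp : Port σ L z wb u) (a b : ι) {τ : ℝ}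
    (hτ : 0 < τ) : siteMeasure ι {ω | ‖Gm A (wr σ z wb (insert u C) ω) a b‖ < θ / (1 + L) * τ ∧
      τ ≤ ‖Gm A (wr σ z wb C ω) a b‖} ≤ ENNReal.ofReal (4 * θ * L / σ) := by
  refine prob_le_of_update u (fun ω => ?_) ((measurableSet_lt (meas_G a b).norm
    measurable_const).inter (measurableSet_le measurable_const (meas_G a b).norm))
  by_cases hτ' : τ ≤ ‖Gm A (wr σ z wb C ω) a b‖
  · refine (measure_mono fun t ht => ?_).trans (ball_affine H.hσ H.h1 hτ hp.le hτ'
      (β := Gm A (wr σ z wb C ω) u u * Gm A (wr σ z wb C ω) a b -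
        Gm A (wr σ z wb C ω) a u * Gm A (wr σ z wb C ω) u b))
    have h1 := rank1_mul (H.adm C ω) (H.adm' C ω u t) a b
    have h2 := ht.1
    have h3 := H.den_le hu hp ω t
    rw [wr_notMem hu] at h1
    rw [wr_insert_update hu, div_mul_eq_mul_div, lt_div_iff₀ (by linarith [H.hL])] at h2
    rw [Set.mem_ofPred_eq, ← h1, norm_mul]
    exact (mul_le_mul_of_nonneg_left h3 (norm_nonneg _)).trans_lt h2
  · refine (measure_mono_null (t := ∅) (fun t ht => hτ' ?_) measure_empty).trans_le zero_le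
    simpa only [wr_update hu] using ht.2

lemma Hyp.q_pos (H : Hyp A σ L θ z wb) : 0 < θ / (1 + L) := div_pos H.h0 (by linarith [H.hL])

lemma Hyp.q_le (H : Hyp A σ L θ z wb) : θ / (1 + L) ≤ θ :=
  div_le_self H.h0.le (by linarith [H.hL])

lemma Hyp.close_all (H : Hyp A σ L θ z wb) (a b : ι) {τ : ℝ} (hτ : 0 < τ)
    (h0 : ∀ ω, τ ≤ ‖Gm A (wr σ z wb C ω) a b‖) (U : Finset ι) :
    (∀ u ∈ U, u ∉ C ∧ Port σ L z wb u) →
    siteMeasure ι {ω | ‖Gm A (wr σ z wb (U ∪ C) ω) a b‖ < (θ / (1 + L)) ^ #U * τ} ≤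
      #U * ENNReal.ofReal (4 * θ * L / σ) := by
  induction U using Finset.induction_on with
  | empty => intro _; simp [fun ω => (h0 ω).not_gt]
  | insert u U hu ih =>
    intro hU
    have h1 := ih fun v hv => hU v (mem_insert_of_mem hv)
    have h2 := hU u (mem_insert_self _ _)
    have h3 := H.close (C := U ∪ C) (by simp [hu, h2.1]) h2.2 a b
      (mul_pos (pow_pos H.q_pos #U) hτ)
    rw [card_insert_of_notMem hu, insert_union, Nat.cast_succ, add_mul, one_mul]
    refine (measure_mono fun ω hω => ?_).trans ((measure_union_le _ _).trans (add_le_add h1 h3))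
    by_cases h : ‖Gm A (wr σ z wb (U ∪ C) ω) a b‖ < (θ / (1 + L)) ^ #U * τ
    · exact Or.inl h
    · exact Or.inr ⟨by simpa only [Set.mem_ofPred_eq, pow_succ', mul_assoc] using hω, not_lt.1 h⟩

/-- flux from `y` into `S` -/
noncomputable def flux (A : Matrix ι ι ℂ) (w : ι → ℂ) (S : Finset ι) (y : ι) : ℝ :=
  ∑ b ∈ S, gam w b * ‖Gm A w b y‖ ^ 2

lemma meas_flux (S : Finset ι) (y : ι) : Measurable fun ω => flux A (wr σ z wb C ω) S y :=
  Finset.measurable_sum _ fun b _ => 
    (measurable_im.comp (meas_wr b)).neg.mul ((meas_G b y).norm.pow_const 2)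

/-- the flux is transferred from the port `u` to `y` when `u` is closed -/
lemma Hyp.transfer (H : Hyp A σ L θ z wb) (hu : u ∉ C) (hp : Port σ L z wb u) {S : Finset ι}
    (hS : u ∉ S) (y : ι) {τ β : ℝ} (hτ : 0 < τ) (hβ : 0 < β) :
    siteMeasure ι {ω | flux A (wr σ z wb (insert u C) ω) S y < ((θ / (1 + L)) ^ 2 * τ * β) ^ 2 ∧
      β ^ 2 ≤ flux A (wr σ z wb C ω) S u ∧ τ ≤ ‖Gm A (wr σ z wb C ω) u y‖} ≤
      ENNReal.ofReal (4 * θ * L / σ) := by
  refine prob_le_of_update u (fun ω => ?_) ((measurableSet_lt (meas_flux S y)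
    measurable_const).inter ((measurableSet_le measurable_const (meas_flux S u)).inter
    (measurableSet_le measurable_const (meas_G u y).norm)))
  refine (vol_le_of_diam (D := 2 * θ * L / σ) fun t ht t' ht' => ?_).trans_eq (by ring_nf)
  obtain ⟨h1, h2, h3⟩ := ht
  have h1' := ht'.1
  simp only [wr_update hu, wr_insert_update hu] at h1 h1' h2 h3
  have e := H.den_le hu hp ω t
  have e' := H.den_le hu hp ω t'
  have hA := H.adm C ω
  have hw := H.pos C ω
  have r := rank1 hA (H.adm' C ω u t)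
  have r' := rank1 hA (H.adm' C ω u t')
  have c := rank1_col hA (H.adm' C ω u t) y
  have c' := rank1_col hA (H.adm' C ω u t') y
  rw [← wr_notMem (σ := σ) (z := z) (wb := wb) hu ω] at e e'
  generalize wr σ z wb C ω = w at *
  set D := 1 + (sv σ z t - w u) * Gm A w u u
  set D' := 1 + (sv σ z t' - w u) * Gm A w u u
  have key : ∀ b, (Gm A (update w u (sv σ z t')) b y - Gm A (update w u (sv σ z t)) b y) * (D * D') =
      Gm A w b u * (Gm A w u y * (sv σ z t - sv σ z t')) := fun b => by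
    rw [r b y, r' b y]
    linear_combination (Gm A w b u * (sv σ z t - w u) * D') * c -
      (Gm A w b u * (sv σ z t' - w u) * D) * c'
  have h4 : flux A w S u * (‖Gm A w u y‖ * (2 * σ * |(t : ℝ) - t'|)) ^ 2 ≤
      2 * (flux A (update w u (sv σ z t')) S y + flux A (update w u (sv σ z t)) S y) *
        ((1 + L) ^ 2) ^ 2 := by
    simp only [flux, ← sum_add_distrib, mul_sum, sum_mul]
    refine sum_le_sum fun b hb => ?_
    have hb' : b ≠ u := by rintro rfl; exact hS hb
    have k := congrArg norm (key b)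
    rw [norm_mul, norm_mul, norm_mul, norm_mul, norm_sv_sub H.hσ] at k
    rw [gam_update, gam_update, if_neg hb', if_neg hb', mul_assoc, ← mul_pow, ← k, ← mul_add,
      mul_comm 2, mul_assoc, mul_assoc, mul_pow]
    refine mul_le_mul_of_nonneg_left ?_ (hw b).le
    rw [← mul_assoc]
    refine mul_le_mul ?_ (pow_le_pow_left₀ (by positivity) ?_ 2) (by positivity) (by positivity)
    · refine (pow_le_pow_left₀ (norm_nonneg _) (norm_sub_le _ _) 2).trans ?_
      nlinarith [sq_nonneg (‖Gm A (update w u (sv σ z t')) b y‖ - ‖Gm A (update w u (sv σ z t)) b y‖)]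
    · rw [sq]; exact mul_le_mul e e' (norm_nonneg _) (by linarith [H.hL])
  have hL := H.hL
  have hσ := H.hσ
  have h5 : (β * (τ * (2 * σ * |(t : ℝ) - t'|))) ^ 2 ≤ (2 * (θ ^ 2 * τ * β)) ^ 2 := by
    have e1 : (2 * (θ ^ 2 * τ * β)) ^ 2 = 2 * (((θ / (1 + L)) ^ 2 * τ * β) ^ 2 +
        ((θ / (1 + L)) ^ 2 * τ * β) ^ 2) * ((1 + L) ^ 2) ^ 2 := by field_simp; ring
    rw [mul_pow, e1]
    refine (mul_le_mul h2 ?_ (by positivity) ((sq_nonneg β).trans h2)).trans (h4.trans ?_)
    · gcongr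
    · gcongr
  have h6 := le_of_sq_le_sq h5 (by positivity)
  have h7 : σ * |(t : ℝ) - t'| ≤ θ ^ 2 :=
    le_of_mul_le_mul_left (by linarith) (by positivity : 0 < 2 * τ * β)
  rw [le_div_iff₀ hσ]
  nlinarith [H.h0, H.h1]

/-- the denominator is not small -/
lemma Hyp.den (H : Hyp A σ L θ z wb) (hu : u ∉ C) (hp : Port σ L z wb u) :
    siteMeasure ι {ω | ‖1 + (sv σ z (ω u) - wb u) * Gm A (wr σ z wb C ω) u u‖ < θ} ≤
      ENNReal.ofReal (4 * θ * L / σ) := by
  refine prob_le_of_update u (fun ω => ?_) (measurableSet_lt (Measurable.norm (Measurable.const_add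
    (Measurable.mul (by unfold sv; fun_prop) (meas_G u u)) _)) measurable_const)
  simpa only [Set.mem_ofPred_eq, wr_update hu, update_self, mul_one] using
    ball_affine H.hσ H.h1 one_pos hp.le (α := 1) (by simp)

end Crest.Agent.N334.AC.E
end

-- ▼ part N334/AC/E/Step
section

/-!
# Row 334, S0520, part E (helper20): neighbour step and spectral averaging
-/

set_option autoImplicit false
set_option linter.unusedSectionVars false

open MeasureTheory Finset Matrix Complex Function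
open scoped ENNReal

namespace Crest.Agent.N334.AC.E

open Crest.MathPhysics.Anderson

variable {ι : Type} [DecidableEq ι] [Fintype ι] {A : Matrix ι ι ℂ} {σ L θ : ℝ} {z : ℂ} {wb : ι → ℂ}
  {C S : Finset ι} {x y : ι}

lemma cnd_eq_flux (hx : x ∈ C) (hS : Disjoint S C) (hb : wb x = -I) (ω : ι → unitInterval) :
    cnd A (wr σ z wb C ω) S x = flux A (wr σ z wb (C.erase x) ω) S x := by
  have h1 : update (wr σ z wb C ω) x (-I) = wr σ z wb (C.erase x) ω := by
    funext a
    by_cases h : a = x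
    · subst h; simp [wr, hb]
    · simp [wr, h]
  rw [cnd, flux, ← h1]
  refine sum_congr rfl fun b hb' => ?_
  rw [gam_update, if_neg (by rintro rfl; exact disjoint_left.1 hS hb' hx)]

lemma Hyp.flux_eq (H : Hyp A σ L θ z wb) (hx : x ∉ C) (hS : x ∉ S) (ω : ι → unitInterval) :
    flux A (wr σ z wb C ω) S x = flux A (wr σ z wb (insert x C) ω) S x *
      ‖1 + (sv σ z (ω x) - wb x) * Gm A (wr σ z wb C ω) x x‖ ^ 2 := by
  rw [flux, flux, sum_mul, wr_insert]
  refine sum_congr rfl fun b hb => ?_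
  rw [gam_update, if_neg (by rintro rfl; exact hS hb), G_symm H.hs _ b x, G_symm H.hs _ b x,
    ← rank1_col (H.adm C ω) (H.adm' C ω x (ω x)) b, wr_notMem hx, norm_mul]
  ring

/-- neighbour step -/
lemma step (hs : A.IsSymm) (hh : A.IsHermitian) (hσ : 0 < σ) (hz : 0 < z.im)
    (hb : ∀ a, a ∉ C → 0 < gam wb a) {c : ℝ} (hc : ∀ a, ∑ b, ‖A a b‖ ≤ c) (hx : x ∈ C)
    (hA : 1 ≤ ‖A y x‖) {U : Finset ι} (hU : U ⊆ C) (hxU : x ∉ U) (hyU : y ∈ U)
    (hN : ∀ u, u ≠ x → (A x u ≠ 0 ∨ A y u ≠ 0) → u ∈ U) {n : ℕ} (hn : #U ≤ n) (hS : Disjoint S C)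
    (hL : σ + ‖z‖ + 4 * (c + 1) ^ 4 ≤ L) (h0 : 0 < θ) (h1 : θ ≤ 1 / 2) {β : ℝ} (hβ : 0 < β) :
    siteMeasure ι {ω | cnd A (wr σ z wb C ω) S y <
        ((θ / (1 + L)) ^ (n + 3) * (4 * (c + 1) ^ 2)⁻¹ * β) ^ 2 ∧ β ^ 2 ≤ cnd A (wr σ z wb C ω) S x} ≤
      (n + 2) * ENNReal.ofReal (4 * θ * L / σ) := by
  have hc0 : 0 ≤ c := (sum_nonneg fun _ _ => norm_nonneg _).trans (hc x)
  have hΛ : 1 ≤ 4 * (c + 1) ^ 4 := by nlinarith [one_le_pow₀ (n := 4) (by linarith : 1 ≤ c + 1)]
  have hxy : x ≠ y := by rintro rfl; exact hxU hyU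
  have hy := hU hyU
  let wb' : ι → ℂ := fun u =>
    if u ∈ C then (if u = x ∨ u = y then -I else -((4 * (c + 1) ^ 4 : ℝ) * I)) else wb u
  have e0 : ∀ ω, wr σ z wb C ω = wr σ z wb' C ω := fun ω => funext fun a => by
    simp only [wr, wb']; split_ifs <;> rfl
  have hg : ∀ u ∈ C, gam wb' u = if u = x ∨ u = y then 1 else 4 * (c + 1) ^ 4 := fun u hu => by
    simp only [gam, wb', if_pos hu]; split_ifs <;> simp [-ofReal_mul, -ofReal_pow]
  have hp : ∀ u ∈ C, Port σ L z wb' u := fun u hu => ⟨by rw [hg u hu]; split_ifs <;> linarith,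
    fun t => (norm_sub_le _ _).trans ((add_le_add (norm_sv_le hσ z t) (by
      simp only [wb', if_pos hu]
      split_ifs
      · simpa using hΛ
      · rw [norm_neg, norm_mul, norm_I, norm_real, mul_one, Real.norm_of_nonneg (by positivity)])).trans
      hL)⟩
  have H : Hyp A σ L θ z wb' := ⟨hs, hh, hσ, hz, fun a => by
    by_cases ha : a ∈ C
    · linarith [(hp a ha).one]
    · simpa only [gam, wb', if_neg ha] using hb a ha, h0, h1, by linarith [norm_nonneg z]⟩
  have ex : wb' x = -I := by simp [wb', hx]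
  have ey : wb' y = -I := by simp [wb', hy]
  have hq := H.q_pos
  have hq1 := H.q_le
  have hc1 : 0 < (4 * (c + 1) ^ 2)⁻¹ := by positivity
  have p1 := H.close_all (C := C.erase x \ U) y x hc1 (fun ω => base (H.adm _ ω) hc hxy hA
    (by rw [wr_notMem (by simp), ex]) (by rw [wr_notMem (by simp [hyU]), ey])
    fun u hux huy hu => by
      have := hN u hux hu
      rw [gam, wr_notMem (by simp [this]), ← gam, hg u (hU this), if_neg (by tauto)]) U
    fun u hu => ⟨by simp [hu], hp u (hU hu)⟩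
  rw [union_sdiff_of_subset fun u hu => mem_erase.2 ⟨by rintro rfl; exact hxU hu, hU hu⟩] at p1
  have p2 := H.transfer (C := C.erase x) (notMem_erase x C) (hp x hx)
    (fun h => disjoint_left.1 hS h hx) y (mul_pos (pow_pos hq n) hc1) hβ
  have p3 := H.den (notMem_erase y C) (hp y hy)
  rw [insert_erase hx] at p2
  refine (measure_mono fun ω hω => ?_).trans ((measure_union_le _ _).trans
    ((add_le_add p1 ((measure_union_le _ _).trans (add_le_add p2 p3))).trans ?_))
  · obtain ⟨a1, a2⟩ := hω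
    rw [e0, cnd_eq_flux hy hS ey, H.flux_eq (notMem_erase y C) (fun h => disjoint_left.1 hS h hy),
      insert_erase hy] at a1
    rw [e0, cnd_eq_flux hx hS ex] at a2
    by_contra hcon
    simp only [Set.mem_union, Set.mem_ofPred_eq, not_or, not_lt, not_and, not_le] at hcon
    obtain ⟨b1, b2, b3⟩ := hcon
    have b4 : (θ / (1 + L)) ^ n * (4 * (c + 1) ^ 2)⁻¹ ≤ ‖Gm A (wr σ z wb' (C.erase x) ω) x y‖ := by
      rw [G_symm hs]
      exact (mul_le_mul_of_nonneg_right (pow_le_pow_of_le_one hq.le (by linarith) hn) hc1.le).trans b1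
    refine (b2 ?_ a2).not_ge b4
    have b5 := pow_le_pow_left₀ hq.le (hq1.trans b3) 2
    have b6 : 0 ≤ flux A (wr σ z wb' C ω) S y :=
      sum_nonneg fun b _ => mul_nonneg (H.pos C ω b).le (sq_nonneg _)
    refine lt_of_mul_lt_mul_right (((mul_le_mul_of_nonneg_left b5 b6).trans_lt a1).trans_eq ?_)
      (pow_pos hq 2).le
    ring
  · rw [add_mul, two_mul]
    gcongr

/-- spectral averaging -/
lemma avg_le (hs : A.IsSymm) (hh : A.IsHermitian) (hσ : 0 < σ) (hz : 0 < z.im)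
    (hb : ∀ a, a ∉ C → 0 < gam wb a) (hx : x ∈ C) (hS : x ∉ S) {δ : ℝ} (hδ : 0 < δ) :
    ∫⁻ ω, ENNReal.ofReal ((Gm A (wr σ z wb C ω) x x).im - δ⁻¹) ∂siteMeasure ι ≤
      ENNReal.ofReal (Real.pi / (2 * σ)) * siteMeasure ι {ω | cnd A (wr σ z wb C ω) S x < δ} := by
  have hm : MeasurableSet {ω | cnd A (wr σ z wb C ω) S x < δ} :=
    measurableSet_lt (measurable_cnd A meas_wr S x) measurable_const
  have hpos := wr_pos σ hz hb
  have hu : ∀ ω t, wr σ z wb C (update ω x t) = update (wr σ z wb C ω) x (sv σ z t) := fun ω t => by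
    conv_lhs => rw [← insert_erase hx, wr_insert_update (notMem_erase x C)]
    conv_rhs => rw [← insert_erase hx, wr_insert, update_idem]
  have hc : ∀ ω t, cnd A (wr σ z wb C (update ω x t)) S x = cnd A (wr σ z wb C ω) S x := fun ω t => by
    rw [hu, cnd, cnd, update_idem]
    exact sum_congr rfl fun b hb => by rw [gam_update, if_neg (by rintro rfl; exact hS hb)]
  rw [← lintegral_indicator_one hm, ← lintegral_const_mul' _ _ ENNReal.ofReal_ne_top]
  refine lint_update_le x ((measurable_im.comp (meas_G x x)).sub_const _).ennreal_ofReal fun ω => ?_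
  by_cases h : cnd A (wr σ z wb C ω) S x < δ
  · rw [Set.indicator_of_mem (by exact h), Pi.one_apply, mul_one]
    have hA := adm_pos hs hh (hpos ω)
    refine le_trans (lintegral_mono fun t => ENNReal.ofReal_le_ofReal ?_)
      (End.lint_im_le hσ (c := Gm A (wr σ z wb C ω) x x) (by simpa using ward_sub hA ∅ x) (ω x))
    have hA' := adm_pos hs hh (hpos (update ω x t))
    rw [hu] at hA' ⊢
    have e : sv σ z t - wr σ z wb C ω x = ((2 * σ * (t - ω x) : ℝ) : ℂ) := by
      simp only [sv, wr, if_pos hx]; push_cast; ring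
    rw [← e, ← eq_div_of_mul_eq (rank1_ne hA hA') (rank1_col hA hA' x)]
    exact sub_le_self _ (by positivity)
  · refine le_of_eq_of_le (lintegral_eq_zero_of_ae_eq_zero (ae_of_all _ fun t => ?_)) zero_le
    have h1 := im_mul_cnd_le hs hh (hpos (update ω x t)) S x
    have h2 : 0 ≤ (Gm A (wr σ z wb C (update ω x t)) x x).im := by
      simpa using ward_sub (adm_pos hs hh (hpos (update ω x t))) ∅ x
    rw [hc] at h1
    refine ENNReal.ofReal_eq_zero.2 (sub_nonpos.2 ?_)
    rw [← one_div, le_div_iff₀ hδ]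
    exact (mul_le_mul_of_nonneg_left (not_lt.1 h) h2).trans h1

theorem eb : EbStmt := fun _ _ _ _ _ _ _ hσ h0 hz hδ =>
  avg_le hop_symm hop_herm hσ hz (fun _ _ => by simp only [gam, sub_im]; linarith)
    (mem_compl.2 zero_notMem_absb) zero_notMem_absb hδ

end Crest.Agent.N334.AC.E
end

-- ▼ part N334/AC/E/Chain
section

/-!
# Row 334, S0520, part E (helper20): from the good event to tightness at the origin
-/

set_option autoImplicit false
set_option linter.unusedSectionVars false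

open MeasureTheory Finset Matrix Complex Function Filter Topology
open scoped ENNReal

namespace Crest.Agent.N334.AC.E

open Crest.MathPhysics.Anderson

lemma ev_measure_le {Ω X : Type} [MeasurableSpace Ω] (μ : Measure Ω) [IsFiniteMeasure μ]
    {l : Filter X} [l.IsCountablyGenerated] {B : X → Set Ω} (hB : ∀ x, MeasurableSet (B x))
    {a b : ℝ≥0∞} (hab : a < b)
    (h : ∀ S, MeasurableSet S → (∀ ω ∈ S, ∃ᶠ x in l, ω ∈ B x) → μ S ≤ a) :
    ∀ᶠ x in l, μ (B x) ≤ b := by
  by_contra hc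
  obtain ⟨s, hs, h1⟩ := exists_seq_forall_of_frequently (not_eventually.1 hc)
  have hm : ∀ n, MeasurableSet (⋃ m ≥ n, B (s m)) := fun n =>
    .biUnion (Set.to_countable _) fun m _ => hB _
  have h2 := tendsto_measure_iInter_atTop (μ := μ) (fun n => (hm n).nullMeasurableSet)
    (fun n n' hn => Set.biUnion_subset_biUnion_left fun m hm => le_trans hn hm)
    ⟨0, measure_ne_top _ _⟩
  refine hab.not_ge ((ge_of_tendsto' h2 fun n => (not_le.1 (h1 n)).le.trans (measure_mono
    (Set.subset_biUnion_of_mem (u := fun m => B (s m)) (le_refl n)))).trans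
    (h _ (.iInter hm) fun ω hω => hs.frequently (frequently_atTop.2 fun n => ?_)))
  simpa using Set.mem_iInter.1 hω n

variable {d M : ℕ} [NeZero M] {σ L θ : ℝ} {w0 z : ℂ}

/-- reduction mod `M` -/
def ct (M : ℕ) (u : Fin d → ℤ) : Tor d M := fun j => (u j : ZMod M)

lemma ct_add (u : Fin d → ℤ) (j : Fin d) : ct M (u + Pi.single j 1) = ct M u + Pi.single j 1 := by
  funext i
  by_cases h : i = j
  · subst h; simp [ct]
  · simp [ct, h]

lemma ct_sub (u : Fin d → ℤ) (j : Fin d) : ct M (u - Pi.single j 1) = ct M u - Pi.single j 1 := by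
  rw [eq_sub_iff_add_eq, ← ct_add, sub_add_cancel]

lemma ct_core {u : Fin d → ℤ} {ρ : ℕ} (hu : ∀ j, (u j).natAbs ≤ ρ) (hM : 4 * ρ ≤ M) :
    ct M u ∈ (absb d M)ᶜ := by
  simp only [absb, mem_compl, mem_filter, mem_univ, true_and, not_exists, not_and, not_lt]
  intro j _
  have := ZMod.natAbs_min_of_le_div_two M (u j : ZMod M).valMinAbs (u j) (by simp)
    (ZMod.natAbs_valMinAbs_le _)
  have := hu j
  simp only [ct]; omega

/-- neighbours -/
def nb (x : Tor d M) : Finset (Tor d M) :=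
  (univ.image fun j => x + Pi.single j 1) ∪ univ.image fun j => x - Pi.single j 1

lemma card_nb (x : Tor d M) : #(nb x) ≤ 2 * d := by
  refine (card_union_le _ _).trans ((add_le_add card_image_le card_image_le).trans_eq ?_)
  simp; ring

lemma mem_nb {x y : Tor d M} (h : hop d M x y ≠ 0) : y ∈ nb x := by
  by_contra hc
  simp only [nb, mem_union, mem_image, mem_univ, true_and, not_or, not_exists] at hc
  refine h (neg_eq_zero.2 (sum_eq_zero fun j _ => ?_))
  rw [if_neg (Ne.symm (hc.1 j)), if_neg (Ne.symm (hc.2 j)), add_zero]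

lemma one_le_hop {x y : Tor d M} (h : y ∈ nb x) : 1 ≤ ‖hop d M x y‖ := by
  have e : hop d M x y = -((∑ j : Fin d, ((if y = x + Pi.single j 1 then (1 : ℝ) else 0) +
      if y = x - Pi.single j 1 then 1 else 0) : ℝ) : ℂ) := by
    simp only [hop, ofReal_sum, ofReal_add, apply_ite ofReal, ofReal_one, ofReal_zero]
  have h0 : ∀ j : Fin d, 0 ≤ (if y = x + Pi.single j 1 then (1 : ℝ) else 0) +
      if y = x - Pi.single j 1 then 1 else 0 := fun j => by positivity
  rw [e, norm_neg, norm_real, Real.norm_of_nonneg (sum_nonneg fun j _ => h0 j)]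
  simp only [nb, mem_union, mem_image, mem_univ, true_and] at h
  rcases h with ⟨j, h⟩ | ⟨j, h⟩ <;>
  · refine le_trans ?_ (single_le_sum (fun j _ => h0 j) (mem_univ j))
    rw [if_pos h.symm]
    split_ifs <;> norm_num

lemma nb_core {u : Fin d → ℤ} {ρ : ℕ} (hu : ∀ j, (u j).natAbs ≤ ρ) (hM : 4 * (ρ + 1) ≤ M) :
    nb (ct M u) ⊆ (absb d M)ᶜ := fun y hy => by
  simp only [nb, mem_union, mem_image, mem_univ, true_and, ← ct_add, ← ct_sub] at hy
  rcases hy with ⟨j, rfl⟩ | ⟨j, rfl⟩ <;>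
  · refine ct_core (fun i => ?_) hM
    have := hu i
    by_cases h : i = j
    · subst h; simp; omega
    · simp [h]; omega

/-- loss of one step -/
noncomputable def Qc (d : ℕ) (L θ : ℝ) : ℝ :=
  (θ / (1 + L)) ^ (4 * d + 1 + 3) * (4 * (2 * (d : ℝ) + 1) ^ 2)⁻¹

lemma Qc_pos (hL : 0 ≤ L) (h0 : 0 < θ) : 0 < Qc d L θ := by unfold Qc; positivity

lemma Qc_le (hL : 0 ≤ L) (h0 : 0 < θ) (h1 : θ ≤ 1 / 2) : Qc d L θ ≤ 1 :=
  mul_le_one₀ (pow_le_one₀ (by positivity) ((div_le_self h0.le (by linarith)).trans (by linarith)))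
    (by positivity) (inv_le_one_of_one_le₀ (by nlinarith [Nat.cast_nonneg (α := ℝ) d]))

lemma tstep (hσ : 0 < σ) (hw : w0.im ≤ 0) (hz : 0 < z.im)
    (hL : σ + ‖z‖ + 4 * (2 * (d : ℝ) + 1) ^ 4 ≤ L) (h0 : 0 < θ) (h1 : θ ≤ 1 / 2) {R : ℕ}
    (hM : 4 * (R + 1) ≤ M) {u u' : Fin d → ℤ} (hu : ∀ j, (u j).natAbs ≤ R)
    (hu' : ∀ j, (u' j).natAbs ≤ R) (hn : ct M u ∈ nb (ct M u')) {β : ℝ} (hβ : 0 < β) :
    siteMeasure (Tor d M) {ω | cM σ w0 z ω (ct M u') < (Qc d L θ * β) ^ 2 ∧
      β ^ 2 ≤ cM σ w0 z ω (ct M u)} ≤ ((4 * d + 1 : ℕ) + 2) * ENNReal.ofReal (4 * θ * L / σ) := by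
  have hne : ct M u' ≠ ct M u := fun h => by
    have : Fact (1 < M) := ⟨by omega⟩
    simp only [nb, mem_union, mem_image, mem_univ, true_and, ← h, add_eq_left, sub_eq_self] at hn
    rcases hn with ⟨j, h⟩ | ⟨j, h⟩ <;> simpa using congrFun h j
  refine step hop_symm hop_herm hσ hz (fun _ _ => by simp only [gam, sub_im]; linarith) hop_row
    (ct_core hu (by omega)) (one_le_hop hn)
    (U := (insert (ct M u') (nb (ct M u) ∪ nb (ct M u'))).erase (ct M u))
    ((erase_subset _ _).trans (insert_subset (ct_core hu' (by omega))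
      (union_subset (nb_core hu hM) (nb_core hu' hM)))) (notMem_erase _ _)
    (mem_erase.2 ⟨hne, mem_insert_self _ _⟩) (fun a ha h => mem_erase.2 ⟨ha, mem_insert_of_mem
      (mem_union.2 (h.imp mem_nb mem_nb))⟩) ?_ disjoint_compl_right hL h0 h1 hβ
  refine card_erase_le.trans ((card_insert_le _ _).trans ?_)
  have := card_union_le (nb (ct M u)) (nb (ct M u'))
  have := card_nb (ct M u)
  have := card_nb (ct M u')
  omega

lemma chain (hσ : 0 < σ) (hw : w0.im ≤ 0) (hz : 0 < z.im)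
    (hL : σ + ‖z‖ + 4 * (2 * (d : ℝ) + 1) ^ 4 ≤ L) (h0 : 0 < θ) (h1 : θ ≤ 1 / 2) {R : ℕ}
    (hM : 4 * (R + 1) ≤ M) (k : ℕ) : ∀ u : Fin d → ℤ, (∀ j, (u j).natAbs ≤ R) →
      ∑ j, (u j).natAbs ≤ k → ∀ β : ℝ, 0 < β →
      siteMeasure (Tor d M) {ω | cM σ w0 z ω 0 < (Qc d L θ ^ k * β) ^ 2 ∧
        β ^ 2 ≤ cM σ w0 z ω (ct M u)} ≤
        k * (((4 * d + 1 : ℕ) + 2) * ENNReal.ofReal (4 * θ * L / σ)) := by
  have hL0 : 0 ≤ L := le_trans (by positivity) hL
  have hQ := Qc_pos (d := d) hL0 h0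
  have hz0 : ∀ (k : ℕ) (β : ℝ), 0 < β → siteMeasure (Tor d M) {ω | cM σ w0 z ω 0 <
      (Qc d L θ ^ k * β) ^ 2 ∧ β ^ 2 ≤ cM σ w0 z ω (ct M 0)} = 0 := fun k β hβ => by
    refine measure_mono_null (fun ω hω => ?_) measure_empty
    have e : ct M (0 : Fin d → ℤ) = 0 := funext fun j => by simp [ct]
    refine (hω.1.trans_le ?_).not_ge (e ▸ hω.2)
    exact pow_le_pow_left₀ (by positivity) (mul_le_of_le_one_left hβ.le
      (pow_le_one₀ hQ.le (Qc_le hL0 h0 h1))) 2
  induction k with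
  | zero =>
    intro u _ h β hβ
    obtain rfl : u = 0 := funext fun j => by simpa using sum_eq_zero_iff.1 (Nat.le_zero.1 h) j
    exact (hz0 0 β hβ).trans_le zero_le
  | succ k ih =>
    intro u hu h β hβ
    by_cases hu0 : u = 0
    · subst hu0; exact (hz0 _ β hβ).trans_le zero_le
    obtain ⟨j, hj⟩ := Function.ne_iff.1 hu0
    obtain ⟨u', h2, h3, h4⟩ : ∃ u' : Fin d → ℤ, ct M u ∈ nb (ct M u') ∧
        (u' j).natAbs + 1 = (u j).natAbs ∧ ∀ i, i ≠ j → u' i = u i := by
      rcases lt_or_gt_of_ne hj with hj | hj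
      · refine ⟨u + Pi.single j 1, mem_union_right _ (mem_image.2 ⟨j, mem_univ _, ?_⟩), ?_,
          fun i hi => by simp [hi]⟩
        · rw [ct_add, add_sub_cancel_right]
        · simp at hj ⊢; omega
      · refine ⟨u - Pi.single j 1, mem_union_left _ (mem_image.2 ⟨j, mem_univ _, ?_⟩), ?_,
          fun i hi => by simp [hi]⟩
        · rw [ct_sub, sub_add_cancel]
        · simp at hj ⊢; omega
    have h5 : ∀ i, (u' i).natAbs ≤ R := fun i => by
      have := hu i
      by_cases hi : i = j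
      · subst hi; omega
      · rwa [h4 i hi]
    have h6 : ∑ i, (u' i).natAbs ≤ k := by
      rw [← add_sum_erase _ _ (mem_univ j)] at h ⊢
      rw [sum_congr rfl fun i hi => by rw [h4 i (mem_erase.1 hi).1]]
      omega
    rw [Nat.cast_succ, add_mul, one_mul]
    refine (measure_mono fun ω hω => ?_).trans ((measure_union_le _ _).trans (add_le_add
      (ih u' h5 h6 _ (mul_pos hQ hβ)) (tstep hσ hw hz hL h0 h1 hM hu h5 h2 hβ)))
    by_cases h : cM σ w0 z ω (ct M u') < (Qc d L θ * β) ^ 2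
    · exact Or.inr ⟨h, hω.2⟩
    · exact Or.inl ⟨by simpa only [pow_succ (Qc d L θ), mul_assoc] using hω.1, not_lt.1 h⟩

lemma good_ev {E κ : ℝ} {R : ℕ} {ω : Tor d M → unitInterval} (hκ : 0 < κ) (hw : w0.im ≤ 0)
    (hL : 3 + |E| ≤ L) (h : Good E w0 κ R fun x => σ * (2 * (ω x : ℝ) - 1)) :
    ∀ᶠ z in 𝓝[{z : ℂ | 0 < z.im}] (E : ℂ), ∃ x ∈ tball (0 : Tor d M) R,
      κ / 2 / (1 + L / κ) ^ 2 ≤ cM σ w0 z ω x := by
  obtain ⟨x, hx, hxa, wx, hn, hi, hu, hk⟩ := h
  set wo := wObs (fun x => σ * (2 * (ω x : ℝ) - 1)) w0 x wx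
  have e1 : ∀ z, Hm (hop d M) (update (wz σ w0 z ω) x (wx - z)) =
      Hm (Aop d M E) wo - (z - E) • 1 := fun z => by
    ext a b
    by_cases hab : a = b
    · subst hab
      simp only [Hm, Aop, wo, wObs, wz, wr, Matrix.add_apply, Matrix.sub_apply, Matrix.smul_apply,
        diagonal_apply_eq, one_apply_eq, smul_eq_mul, update_apply, mem_compl]
      split_ifs with h1 h2
      · exact absurd (h1 ▸ h2) hxa
      all_goals ring
    · simp [Hm, Aop, hab]
  have e2 : ContinuousAt (fun z : ℂ => ∑ b ∈ absb d M,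
      -w0.im * ‖(Hm (Aop d M E) wo - (z - E) • 1)⁻¹ x b‖ ^ 2) E := by
    have : ContinuousAt (fun z : ℂ => (Hm (Aop d M E) wo - (z - E) • 1)⁻¹) E :=
      ContinuousAt.comp_of_eq (continuousAt_matrix_inv (Hm (Aop d M E) wo) (by
        rw [Ring.inverse_eq_inv']; exact continuousAt_inv₀ hu.ne_zero)) (by fun_prop) (by simp)
    exact tendsto_finsetSum _ fun b _ => (((continuous_apply_apply x b).continuousAt.comp
      this).norm.pow 2).const_mul _
  have e3 : κ / 2 < ∑ b ∈ absb d M,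
      -w0.im * ‖(Hm (Aop d M E) wo - ((E : ℂ) - E) • 1)⁻¹ x b‖ ^ 2 := by
    refine (half_lt_self hκ).trans_le (hk.trans (sum_le_sum fun b hb => ?_))
    have g1 : gam wo b = -w0.im := by simp [gam, wo, wObs, hb]
    have g2 : gam wo x = -wx.im := by simp [gam, wo, wObs, hxa]
    have g3 : -wx.im ≤ 1 := by linarith [neg_le_abs wx.im, abs_im_le_norm wx]
    rw [sub_self, zero_smul, sub_zero, Km, norm_mul, norm_mul, mul_pow, mul_pow, norm_real,
      norm_real, Real.norm_eq_abs, Real.norm_eq_abs, sq_abs, sq_abs, g1, g2,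
      Real.sq_sqrt (by linarith), Real.sq_sqrt (by linarith), mul_comm, Gm]
    exact mul_le_mul_of_nonneg_left (mul_le_of_le_one_left (sq_nonneg _) g3) (by linarith)
  have e4 : ∀ᶠ z in 𝓝 (E : ℂ), ‖z‖ < |E| + 1 :=
    continuous_norm.continuousAt.eventually_lt_const (by simp)
  filter_upwards [nhdsWithin_le_nhds (e2.eventually_const_lt e3), nhdsWithin_le_nhds e4,
    self_mem_nhdsWithin] with z h1 h2 hz
  refine ⟨x, hx, ?_⟩
  have hz : 0 < z.im := hz
  have hp := wz_pos σ hw hz ω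
  have hA := adm_pos hop_symm hop_herm (gam_update_pos hp x (t := wx - z) (by simp; linarith))
  have hA' := adm_pos hop_symm hop_herm (gam_update_pos (gam_update_pos hp x (t := wx - z)
    (by simp; linarith)) x (t := -I) (by simp))
  have h3 := norm_diag_le hA (b := x) hκ (by simp [gam_update]; linarith)
  have h4 : ‖1 + (-I - (wx - z)) * Gm (hop d M) (update (wz σ w0 z ω) x (wx - z)) x x‖ ≤
      1 + L / κ := by
    refine (norm_add_le _ _).trans ?_
    rw [norm_one, norm_mul, div_eq_mul_inv]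
    have : ‖-I - (wx - z)‖ ≤ L := by
      refine (norm_sub_le _ _).trans ?_
      rw [norm_neg, norm_I]
      linarith [norm_sub_le wx z]
    gcongr
    exact (norm_nonneg _).trans this
  rw [← e1] at h1
  rw [div_le_iff₀ (by have := (abs_nonneg E).trans (by linarith : |E| ≤ L); positivity), cM, cnd,
    sum_mul]
  refine h1.le.trans (sum_le_sum fun b hb => ?_)
  have h5 := rank1_col hA hA' b
  rw [update_idem, update_self] at h5
  rw [← Gm, ← h5, G_symm hop_symm _ b x, norm_mul, mul_pow, mul_assoc]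
  have h6 : -w0.im ≤ gam (wz σ w0 z ω) b := by simp [gam, wz, wr, hb, hz.le]
  gcongr
  exact (hp b).le

theorem tight (hD : DigitStmt) (hd : 1 ≤ d) (hσ : 0 < σ) {κ : ℝ} (hκ : 0 < κ)
    (h : ∀ ε > (0 : ℝ), ∃ R : ℕ, ∀ E₀ : ℝ, InWin d E₀ → ∀ M₀ : ℕ, ∃ (M : ℕ) (_ : NeZero M), M₀ ≤ M ∧
      ∃ w0 : ℂ, ‖w0‖ ≤ 1 ∧ κ ≤ -w0.im ∧ ∃ N : ℕ, 0 < N ∧
        ∀ E : ℝ, InWin d E → |E - E₀| ≤ σ ^ 2 →
          ∀ r : Tor d M → ℝ, (∀ x, 0 ≤ r x ∧ r x ≤ 1) →
            badFrac σ E w0 κ R N r (fun _ => range N) ≤ ε) : Tight d σ := by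
  intro ε hε
  obtain ⟨R, hR⟩ := h (ε / 4) (by positivity)
  set L : ℝ := σ + (2 * d + 3) + 4 * (2 * (d : ℝ) + 1) ^ 4
  have hL : 0 < L := by positivity
  set c : ℝ := (2 * R + 1) ^ d * ((d * R : ℕ) * (((4 * d + 1 : ℕ) + 2) * (4 * L / σ)))
  have hc : 0 ≤ c := by positivity
  obtain ⟨θ, h0, h1, h2⟩ : ∃ θ : ℝ, 0 < θ ∧ θ ≤ 1 / 2 ∧ c * θ ≤ ε / 2 :=
    ⟨min (1 / 2) (ε / 2 / (c + 1)), by positivity, min_le_left _ _, by
      refine (mul_le_mul_of_nonneg_left (min_le_right _ _) hc).trans ?_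
      rw [← mul_div_assoc, div_le_iff₀ (by positivity)]; nlinarith⟩
  set β := √(κ / 2 / (1 + L / κ) ^ 2)
  have hβ : 0 < β := Real.sqrt_pos.2 (by positivity)
  refine ⟨(Qc d L θ ^ (d * R) * β) ^ 2, pow_pos (mul_pos (pow_pos (Qc_pos hL.le h0) _) hβ) 2,
    fun a ha M₀ => ?_⟩
  obtain ⟨M, hM, hM0, w0, hw1, hw2, N, hN, hb⟩ := hR a ⟨ha.1.le, ha.2.le⟩ (max M₀ (4 * (R + 1)))
  have hw : w0.im ≤ 0 := by linarith
  refine ⟨M, hM, le_of_max_le_left hM0, w0, hw1, hw, fun E hE hEa => ?_⟩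
  have hE' : |E| ≤ 2 * d := by
    have : (1 : ℝ) ≤ d := by exact_mod_cast hd
    exact abs_le.2 ⟨by linarith [hE.1], by linarith [hE.2]⟩
  have hbad := ev_measure_le (siteMeasure (Tor d M)) (l := 𝓝[{z : ℂ | 0 < z.im}] (E : ℂ))
    (B := fun z => ⋂ x ∈ tball (0 : Tor d M) R, {ω | cM σ w0 z ω x < β ^ 2})
    (fun z => Finset.measurableSet_biInter _ fun x _ => measurableSet_lt
      (measurable_cM σ w0 (z := fun _ => z) (ω := fun ω => ω) measurable_const measurable_id x)
      measurable_const)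
    ((ENNReal.ofReal_lt_ofReal_iff (half_pos hε)).2 (by linarith : ε / 4 < ε / 2))
    fun S hS hS' => hD d M σ E w0 κ R N _ hN (hb E ⟨hE.1.le, hE.2.le⟩ hEa) S hS fun ω hω hg => by
      obtain ⟨z, g1, x, hx, g2⟩ := ((hS' ω hω).and_eventually (good_ev (L := L) hκ hw (by
        have : 0 ≤ 4 * (2 * (d : ℝ) + 1) ^ 4 := by positivity
        simp only [L]; linarith) hg)).exists
      refine not_le.2 (show cM σ w0 z ω x < β ^ 2 from Set.mem_iInter₂.1 g1 x hx) ?_
      rwa [Real.sq_sqrt (by positivity)]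
  have e4 : ∀ᶠ z in 𝓝 (E : ℂ), ‖z‖ < |E| + 1 :=
    continuous_norm.continuousAt.eventually_lt_const (by simp)
  filter_upwards [hbad, nhdsWithin_le_nhds e4, self_mem_nhdsWithin] with z g1 g2 hz
  have g3 : ∀ x ∈ tball (0 : Tor d M) R, siteMeasure (Tor d M) {ω | cM σ w0 z ω 0 <
      (Qc d L θ ^ (d * R) * β) ^ 2 ∧ β ^ 2 ≤ cM σ w0 z ω x} ≤
      ENNReal.ofReal ((d * R : ℕ) * (((4 * d + 1 : ℕ) + 2) * (4 * θ * L / σ))) := fun x hx => by
    have hu : ∀ j, (x j).valMinAbs.natAbs ≤ R := fun j => by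
      simpa using (le_sup (f := fun j => (x j - (0 : Tor d M) j).valMinAbs.natAbs)
        (mem_univ j)).trans (mem_tball.1 hx)
    have := chain hσ hw hz (L := L) (by simp only [L]; linarith) h0 h1 (le_of_max_le_right hM0)
      (d * R) (fun j => (x j).valMinAbs) hu (by simpa using sum_le_card_nsmul univ _ R fun j _ => hu j)
      β hβ
    rw [show ct M (fun j => (x j).valMinAbs) = x from funext fun j => by simp [ct]] at this
    rw [ENNReal.ofReal_mul (by positivity), ENNReal.ofReal_mul (by positivity),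
      ENNReal.ofReal_add (by positivity) (by positivity), ENNReal.ofReal_natCast,
      ENNReal.ofReal_natCast, ENNReal.ofReal_ofNat]
    exact this
  refine (measure_mono (t := _ ∪ ⋃ x ∈ tball (0 : Tor d M) R, _) fun ω hω => ?_).trans
    ((measure_union_le _ _).trans ((add_le_add g1 ((measure_biUnion_finset_le _ _).trans
      (sum_le_card_nsmul _ _ _ g3))).trans ?_))
  · by_contra hcon
    simp only [Set.mem_union, Set.mem_iInter, Set.mem_iUnion, Set.mem_ofPred_eq, not_or, not_forall,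
      not_exists, not_and, not_lt] at hcon
    obtain ⟨⟨x, hx, g4⟩, g5⟩ := hcon
    exact g5 x hx hω g4
  · rw [nsmul_eq_mul, ← ENNReal.ofReal_natCast, ← ENNReal.ofReal_mul (by positivity),
      ← ENNReal.ofReal_add (by positivity) (by positivity), card_tball]
    refine ENNReal.ofReal_le_ofReal ?_
    have := mul_le_mul_of_nonneg_right (vol_le (d := d) (M := M) R)
      (by positivity : 0 ≤ ((d * R : ℕ) : ℝ) * (((4 * d + 1 : ℕ) + 2) * (4 * θ * L / σ)))
    have e : (2 * R + 1) ^ d * (((d * R : ℕ) : ℝ) * (((4 * d + 1 : ℕ) + 2) * (4 * θ * L / σ))) =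
        c * θ := by simp only [c]; ring
    linarith

end Crest.Agent.N334.AC.E
end

-- ▼ part N334/AC/E/Digit
section

/-!
# Row 334, S0520, part E: from digit fields to the product measure
-/

set_option autoImplicit false

open MeasureTheory Finset
open scoped ENNReal NNReal

namespace Crest.Agent.N334.AC.E

open Crest.MathPhysics Crest.MathPhysics.Anderson

namespace Digit

/-- the affine map onto the `k`-th cell -/
noncomputable def phi (N k : ℕ) (r : unitInterval) : unitInterval :=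
  Set.projIcc 0 1 zero_le_one ((k + r) / N)

lemma measurable_phi (N k : ℕ) : Measurable (phi N k) :=
  (continuous_projIcc.comp (by fun_prop)).measurable

lemma coe_phi {N k : ℕ} (h : k < N) (r : unitInterval) : (phi N k r : ℝ) = (k + r) / N := by
  have h0 : (0 : ℝ) < N := Nat.cast_pos.2 (by omega)
  have h1 : (k : ℝ) + 1 ≤ N := by exact_mod_cast h
  have := r.2.1
  have := r.2.2
  rw [phi, Set.projIcc_of_mem _ ⟨by positivity, (div_le_one h0).2 (by linarith)⟩]

lemma le_sum {N : ℕ} (hN : 0 < N) (t : Set unitInterval) :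
    N * volume t ≤ ∑ k ∈ range N, volume (phi N k ⁻¹' t) := by
  have h0 : (0 : ℝ) < N := Nat.cast_pos.2 hN
  have h1 : (· * (N : ℝ)⁻¹) ⁻¹' (Subtype.val '' t) ⊆
      ⋃ k ∈ range N, (fun s => -(k : ℝ) + s) ⁻¹' (Subtype.val '' (phi N k ⁻¹' t)) := by
    rintro s ⟨u, hu, e⟩
    have hs : s = u * N := by
      simp only at e
      rw [e]; field_simp
    have a0 : 0 ≤ s := hs ▸ mul_nonneg u.2.1 h0.le
    have a1 : s ≤ N := hs ▸ mul_le_of_le_one_left h0.le u.2.2
    obtain ⟨k, hk, b0, b1⟩ : ∃ k < N, (k : ℝ) ≤ s ∧ s ≤ k + 1 := by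
      rcases a1.eq_or_lt with h | h
      · obtain ⟨k, rfl⟩ : ∃ k, N = k + 1 := ⟨N - 1, by omega⟩
        push_cast at h
        exact ⟨k, by omega, by linarith, h.le⟩
      · exact ⟨⌊s⌋₊, (Nat.floor_lt a0).2 h, Nat.floor_le a0, (Nat.lt_floor_add_one s).le⟩
    refine Set.mem_biUnion (mem_coe.2 (mem_range.2 hk))
      ⟨⟨-(k : ℝ) + s, by linarith, by linarith⟩, ?_, rfl⟩
    rw [Set.mem_preimage]
    convert hu
    refine Subtype.ext ?_
    rw [coe_phi hk, e]
    simp [div_eq_mul_inv]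
  have h2 := (measure_mono (μ := volume) h1).trans (measure_biUnion_finset_le _ _)
  simp only [measure_preimage_add, ← unitInterval.volume_apply] at h2
  rwa [Real.volume_preimage_mul_right (by positivity), inv_inv, abs_of_pos h0,
    ENNReal.ofReal_natCast, ← unitInterval.volume_apply] at h2

lemma eq_sum {N : ℕ} (hN : 0 < N) {t : Set unitInterval} (ht : MeasurableSet t) :
    ∑ k ∈ range N, volume (phi N k ⁻¹' t) = N * volume t := by
  have h : ∀ t, MeasurableSet t → (∑ k ∈ range N, Measure.map (phi N k) volume) t =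
      ∑ k ∈ range N, volume (phi N k ⁻¹' t) := fun t ht => by
    rw [Measure.finsetSum_apply]
    exact sum_congr rfl fun k _ => Measure.map_apply (measurable_phi N k) ht
  have h1 : (N : ℝ≥0) • (volume : Measure unitInterval) =
      ∑ k ∈ range N, Measure.map (phi N k) volume := by
    refine Measure.eq_of_le_of_measure_univ_eq (Measure.le_intro fun s hs _ => ?_) ?_
    · rw [h s hs]
      simpa using le_sum hN s
    · rw [h _ .univ]
      simp
  rw [← h t ht, ← h1]
  simp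

variable {Λ : Type} [Fintype Λ] [DecidableEq Λ]

omit [Fintype Λ] [DecidableEq Λ] in
lemma measurable_Phi (N : ℕ) (k : Λ → ℕ) :
    Measurable fun (r : Λ → unitInterval) x => phi N (k x) (r x) :=
  measurable_pi_lambda _ fun x => (measurable_phi N (k x)).comp (measurable_pi_apply x)

lemma site_eq {N : ℕ} (hN : 0 < N) : siteMeasure Λ = ((N : ℝ≥0∞) ^ Fintype.card Λ)⁻¹ •
    ∑ k ∈ Fintype.piFinset fun _ : Λ => range N,
      (siteMeasure Λ).map fun r x => phi N (k x) (r x) := by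
  rw [siteMeasure, Measure.infinitePi_eq_pi]
  refine Measure.pi_eq fun s hs => ?_
  rw [Measure.smul_apply, Measure.finsetSum_apply, sum_congr rfl fun k _ =>
    (Measure.map_apply (measurable_Phi N k) (.univ_pi hs)).trans
      (Measure.pi_pi _ fun x => phi N (k x) ⁻¹' s x),
    ← prod_univ_sum (fun _ : Λ => range N) fun x k => volume (phi N k ⁻¹' s x),
    prod_congr rfl fun x _ => eq_sum hN (hs x), prod_mul_distrib, prod_const, card_univ,
    smul_eq_mul, ← mul_assoc, ENNReal.inv_mul_cancel (pow_ne_zero _ (by simpa using hN.ne'))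
      (by finiteness), one_mul]

end Digit

open Digit in
/-- from digit fields to the product measure -/
theorem digit : DigitStmt := by
  classical
  intro d M _ σ E w0 κ R N ε hN h S hS hb
  have hP : IsProbabilityMeasure (siteMeasure (Tor d M)) := by
    unfold siteMeasure; infer_instance
  rw [site_eq hN, Measure.smul_apply, Measure.finsetSum_apply,
    sum_congr rfl fun k _ => (Measure.map_apply (measurable_Phi N k) hS).trans
      (lintegral_indicator_one (measurable_Phi N k hS)).symm,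
    ← lintegral_finsetSum _ fun k _ => measurable_one.indicator (measurable_Phi N k hS),
    smul_eq_mul, ← lintegral_const_mul' _ _ (ENNReal.inv_ne_top.2
      (pow_ne_zero _ (by simpa using hN.ne')))]
  refine (lintegral_mono (g := fun _ => ENNReal.ofReal ε) fun r => ?_).trans (by simp)
  refine le_trans ?_ (ENNReal.ofReal_le_ofReal (h (fun x => r x) fun x => (r x).2))
  rw [badFrac, ENNReal.ofReal_div_of_pos (prod_pos fun _ _ => by simpa using hN),
    ENNReal.ofReal_sum_of_nonneg fun _ _ => by split_ifs <;> norm_num, card_range, prod_const,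
    card_univ, ENNReal.ofReal_pow (Nat.cast_nonneg _), ENNReal.ofReal_natCast, ENNReal.div_eq_inv_mul]
  refine mul_le_mul_right (sum_le_sum fun k hk => ?_) _
  by_cases hr : r ∈ (fun r x => phi N (k x) (r x)) ⁻¹' S
  · have h1 := hb _ hr
    simp only [fun x => coe_phi (mem_range.1 (Fintype.mem_piFinset.1 hk x)) (r x)] at h1
    rw [if_neg (show ¬ Good E w0 κ R fun x => val σ N (r x) (k x) from h1), Set.indicator_of_mem hr]
    simp
  · rw [Set.indicator_of_notMem hr]
    exact zero_le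

end Crest.Agent.N334.AC.E
end

-- ▼ part N334/AC/E/Pois
section

/-!
# Row 334, S0520, leaf E/Pois: the mean value property gives uniform integrability
-/

set_option autoImplicit false

open MeasureTheory Filter Topology Complex Set Real

namespace Crest.Agent.N334.AC.E

open Crest.MathPhysics Crest.MathPhysics.Anderson

namespace Pois

lemma diff_inv {ι : Type} [Fintype ι] [DecidableEq ι] {B : ℂ → Matrix ι ι ℂ}
    (hB : ∀ a b, Differentiable ℂ fun z => B z a b) (a b : ι) {z : ℂ} (hz : IsUnit (B z).det) :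
    DifferentiableAt ℂ (fun z => (B z)⁻¹ a b) z := by
  have hd : ∀ {B : ℂ → Matrix ι ι ℂ}, (∀ a b, Differentiable ℂ fun z => B z a b) →
      Differentiable ℂ fun z => (B z).det := fun hB => by
    simp only [Matrix.det_apply']
    fun_prop
  have : (fun z => (B z)⁻¹ a b) = fun z => (B z).det⁻¹ * ((B z).updateRow b (Pi.single a 1)).det :=
    funext fun p => by
      rw [Matrix.inv_def, Ring.inverse_eq_inv', Matrix.smul_apply, Matrix.adjugate_apply]; rfl
  rw [this]
  refine ((hd hB z).inv hz.ne_zero).mul (hd (fun i j => ?_) z)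
  simp only [Matrix.updateRow_apply]
  split_ifs
  exacts [differentiable_const _, hB _ _]

lemma diff_gM {d M : ℕ} [NeZero M] (σ : ℝ) {w0 z : ℂ} (h0 : w0.im ≤ 0) (hz : 0 < z.im)
    (ω : Tor d M → unitInterval) : DifferentiableAt ℂ (fun z => gM σ w0 z ω) z := by
  refine diff_inv (fun i j => ?_) 0 0 (wz_adm σ h0 hz ω).inv
  simp only [Hm, Matrix.add_apply, Matrix.diagonal_apply, wz, wr]
  split_ifs <;> fun_prop

/-- the disc onto the upper half plane -/
noncomputable def Mo (a s : ℝ) (ζ : ℂ) : ℂ := a + I * s * ((1 + ζ) / (1 - ζ))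

lemma Mo_im (a s : ℝ) (ζ : ℂ) : (Mo a s ζ).im = s * ((1 - ‖ζ‖ ^ 2) / normSq (1 - ζ)) := by
  rw [Complex.sq_norm, normSq_apply ζ]
  simp only [Mo, add_im, ofReal_im, mul_im, mul_re, I_re, I_im, ofReal_re, div_re]
  simp
  left
  ring

lemma ne_one {ζ : ℂ} (h : ‖ζ‖ < 1) : 1 - ζ ≠ 0 := fun h' => by
  rw [← sub_eq_zero.1 h'] at h; simp at h

lemma Mo_pos (a : ℝ) {s : ℝ} (hs : 0 < s) {ζ : ℂ} (h : ‖ζ‖ < 1) : 0 < (Mo a s ζ).im := by
  rw [Mo_im]
  exact mul_pos hs (div_pos (sub_pos.2 (pow_lt_one₀ (norm_nonneg _) h two_ne_zero))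
    (normSq_pos.2 (ne_one h)))

lemma diff_Mo (a s : ℝ) {ζ : ℂ} (h : 1 - ζ ≠ 0) : DifferentiableAt ℂ (Mo a s) ζ := by
  unfold Mo; fun_prop (disch := exact h)

lemma Mo_zero (a s : ℝ) : Mo a s 0 = ⟨a, s⟩ := Complex.ext (by simp [Mo]) (by simp [Mo])

lemma mean {F : ℂ → ℂ} (hF : ∀ ζ, ‖ζ‖ < 1 → DifferentiableAt ℂ F ζ) {r : ℝ} (hr : |r| < 1) (K : ℝ) :
    ENNReal.ofReal (2 * π) * ENNReal.ofReal ((F 0).im - K) ≤
      ∫⁻ θ in Ioc 0 (2 * π), ENNReal.ofReal ((F (circleMap 0 r θ)).im - K) := by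
  have h1 : circleAverage F 0 r = F 0 := DiffContOnCl.circleAverage
    (DifferentiableOn.diffContOnCl fun ζ hζ => (hF ζ
      ((mem_closedBall_zero_iff.1 (Metric.closure_ball_subset_closedBall hζ)).trans_lt
        hr)).differentiableWithinAt)
  have hc : Continuous fun θ => F (circleMap 0 r θ) := continuous_iff_continuousAt.2 fun θ =>
    (hF _ (by simpa using hr)).continuousAt.comp (continuous_circleMap 0 r).continuousAt
  have h2 : IntegrableOn (fun θ => (F (circleMap 0 r θ)).im - K) (Ioc 0 (2 * π)) :=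
    ((continuous_im.comp hc).sub continuous_const).integrableOn_Ioc
  have h3 : 2 * π * ((F 0).im - K) = ∫ θ in Ioc 0 (2 * π), ((F (circleMap 0 r θ)).im - K) := by
    rw [← h1, circleAverage_def, intervalIntegral.integral_of_le two_pi_pos.le,
      integral_sub (f := fun θ => (F (circleMap 0 r θ)).im)
        (continuous_im.comp hc).integrableOn_Ioc (integrable_const _), smul_im,
      show (∫ θ in Ioc 0 (2 * π), F (circleMap 0 r θ)).im = _ from
        (imCLM.integral_comp_comm hc.integrableOn_Ioc).symm]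
    simp [max_eq_left two_pi_pos.le]
    field_simp
  rw [← ENNReal.ofReal_mul two_pi_pos.le, h3, integral_eq_lintegral_pos_part_sub_lintegral_neg_part h2]
  exact (ENNReal.ofReal_le_ofReal (sub_le_self _ ENNReal.toReal_nonneg)).trans
    ENNReal.ofReal_toReal_le

theorem avg {Ω : Type} [MeasurableSpace Ω] (P : Measure Ω) [SFinite P] {F : ℂ → Ω → ℂ}
    (hm : Measurable fun p : Ω × ℂ => F p.2 p.1)
    (hd : ∀ ω z, 0 < z.im → DifferentiableAt ℂ (fun z => F z ω) z) {K a s τ : ℝ} (hs : 0 < s)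
    {c e : ENNReal} (hc : c ≠ ⊤)
    (h1 : ∀ z : ℂ, 0 < z.im → ∫⁻ ω, ENNReal.ofReal ((F z ω).im - K) ∂P ≤ c)
    (h2 : ∀ θ ∈ Icc τ (2 * π - τ), 1 - circleMap 0 1 θ ≠ 0 ∧
      ∀ᶠ z in 𝓝[{z : ℂ | 0 < z.im}] (Mo a s (circleMap 0 1 θ)),
        ∫⁻ ω, ENNReal.ofReal ((F z ω).im - K) ∂P ≤ e) :
    ENNReal.ofReal (2 * π) * ∫⁻ ω, ENNReal.ofReal ((F ⟨a, s⟩ ω).im - K) ∂P ≤
      e * ENNReal.ofReal (2 * π) + c * (ENNReal.ofReal τ + ENNReal.ofReal τ) := by
  let r : ℕ → ℝ := fun n => 1 - 1 / ((n : ℝ) + 1)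
  have r1 : ∀ n, |r n| < 1 := fun n => by
    have h3 : 0 < 1 / ((n : ℝ) + 1) := by positivity
    have h4 : 1 / ((n : ℝ) + 1) ≤ 1 := (div_le_one (by positivity)).2 (by simp)
    exact abs_lt.2 ⟨by simp only [r]; linarith, by simp only [r]; linarith⟩
  have r2 : Tendsto r atTop (𝓝 1) := by
    simpa only [sub_zero] using tendsto_one_div_add_atTop_nhds_zero_nat.const_sub (1 : ℝ)
  have hp : ∀ n θ, 0 < (Mo a s (circleMap 0 (r n) θ)).im := fun n θ =>
    Mo_pos a hs (by simpa using r1 n)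
  have hG : ∀ n, Measurable fun p : Ω × ℝ =>
      ENNReal.ofReal ((F (Mo a s (circleMap 0 (r n) p.2)) p.1).im - K) := fun n =>
    ((measurable_im.comp (hm.comp (measurable_fst.prodMk (f := Prod.fst)
      (g := fun p : Ω × ℝ => Mo a s (circleMap 0 (r n) p.2))
      (by unfold Mo circleMap; fun_prop)))).sub_const K).ennreal_ofReal
  have h3 : ∀ n, ENNReal.ofReal (2 * π) * ∫⁻ ω, ENNReal.ofReal ((F ⟨a, s⟩ ω).im - K) ∂P ≤
      ∫⁻ θ in Ioc 0 (2 * π), ∫⁻ ω,
        ENNReal.ofReal ((F (Mo a s (circleMap 0 (r n) θ)) ω).im - K) ∂P := fun n => by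
    rw [← lintegral_const_mul' _ _ ENNReal.ofReal_ne_top,
      ← lintegral_lintegral_swap (hG n).aemeasurable, ← Mo_zero]
    exact lintegral_mono fun ω => mean (F := fun ζ => F (Mo a s ζ) ω) (fun ζ hζ =>
      (hd ω _ (Mo_pos a hs hζ)).comp ζ (diff_Mo a s (ne_one hζ))) (r1 n) K
  refine (le_limsup_of_frequently_le (Frequently.of_forall h3)).trans
    ((limsup_lintegral_le (fun _ => c) (fun n => (hG n).lintegral_prod_left')
      (fun n => Eventually.of_forall fun θ => h1 _ (hp n θ))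
      (by rw [setLIntegral_const, volume_Ioc]
          exact ENNReal.mul_ne_top hc ENNReal.ofReal_ne_top)).trans ?_)
  refine (lintegral_mono (g := fun θ => e + (Icc τ (2 * π - τ))ᶜ.indicator (fun _ => c) θ)
    fun θ => ?_).trans ?_
  · by_cases h : θ ∈ Icc τ (2 * π - τ)
    · have h4 : Tendsto (fun n => Mo a s (circleMap 0 (r n) θ)) atTop
          (𝓝[{z : ℂ | 0 < z.im}] (Mo a s (circleMap 0 1 θ))) :=
        tendsto_nhdsWithin_iff.2 ⟨(diff_Mo a s (h2 θ h).1).continuousAt.tendsto.comp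
          ((((continuous_ofReal.tendsto 1).comp r2).mul_const _).const_add _),
          Eventually.of_forall fun n => hp n θ⟩
      exact le_add_right (limsup_le_of_le (h := h4.eventually (h2 θ h).2))
    · beta_reduce
      rw [indicator_of_mem (mem_compl h)]
      exact le_add_left (limsup_le_of_le (h := Eventually.of_forall fun n => h1 _ (hp n θ)))
  · rw [lintegral_add_left measurable_const, lintegral_indicator_const measurableSet_Icc.compl,
      setLIntegral_const, volume_Ioc, sub_zero, Measure.restrict_apply measurableSet_Icc.compl]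
    refine add_le_add le_rfl (mul_le_mul_right ((measure_mono
      (t := Ioc 0 τ ∪ Ioc (2 * π - τ) (2 * π)) fun θ hθ => ?_).trans
        ((measure_union_le _ _).trans_eq (by simp))) c)
    rcases not_and_or.1 hθ.1 with h | h
    exacts [Or.inl ⟨hθ.2.1, (not_le.1 h).le⟩, Or.inr ⟨not_le.1 h, hθ.2.2⟩]
end Pois
open Pois

/-- **leaf E/Pois** -/
theorem pois : PoisStmt := by
  intro hE d σ hσ hT ε hε
  have c0 : 0 < π / (2 * σ) := by positivity
  obtain ⟨δ, hδ, hT⟩ := hT (ε / (2 * (π / (2 * σ)))) (by positivity)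
  refine ⟨δ⁻¹, fun a ha => ?_⟩
  obtain ⟨ρ, ρ0, hρ⟩ := Metric.isOpen_iff.1 (isOpen_Ioo.inter Metric.isOpen_ball) a
    (⟨ha, Metric.mem_ball_self (pow_pos hσ 2)⟩ : a ∈ Win d ∩ Metric.ball a (σ ^ 2))
  set τ := π * (ε / (2 * (π / (2 * σ)))) with hτ
  have τ0 : 0 < τ := by positivity
  obtain ⟨m, m0, hm⟩ := (isCompact_Icc (a := τ) (b := 2 * π - τ)).exists_forall_le'
    (f := fun θ => ‖1 - circleMap 0 1 θ‖) (by fun_prop) (a := 0) fun θ hθ => norm_pos_iff.2 fun h => by
      have h1 : Real.cos θ = 1 := by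
        simpa [circleMap, exp_ofReal_mul_I_re] using (congrArg re (sub_eq_zero.1 h)).symm
      linarith [(cos_eq_one_iff_of_lt_of_lt (by linarith [hθ.1, pi_pos])
        (by linarith [hθ.2])).1 h1, hθ.1]
  filter_upwards [Ioo_mem_nhdsGT (show 0 < ρ * m / 2 by positivity)] with s hs M₀
  obtain ⟨M, _, hM, w0, h1, h2, h3⟩ := hT a ha M₀
  refine ⟨M, inferInstance, hM, w0, h1, h2, ?_⟩
  have : IsProbabilityMeasure (siteMeasure (Tor d M)) := by unfold siteMeasure; infer_instance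
  have h4 := avg (siteMeasure (Tor d M)) (F := gM σ w0)
    (measurable_gM σ w0 measurable_snd measurable_fst) (fun ω z hz => diff_gM σ h2 hz ω)
    (K := δ⁻¹) (a := a) (τ := τ) hs.1 (c := ENNReal.ofReal (π / (2 * σ)))
    (e := ENNReal.ofReal (π / (2 * σ)) * ENNReal.ofReal (ε / (2 * (π / (2 * σ)))))
    ENNReal.ofReal_ne_top (fun z hz => (hE d M σ w0 z δ hσ h2 hz hδ).trans
      (mul_le_of_le_one_right' prob_le_one)) fun θ hθ => ?_
  · refine (ENNReal.mul_le_mul_iff_right (ENNReal.ofReal_pos.2 two_pi_pos).ne'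
      ENNReal.ofReal_ne_top).1 (h4.trans_eq ?_)
    rw [← ENNReal.ofReal_mul c0.le, ← ENNReal.ofReal_mul (by positivity),
      ← ENNReal.ofReal_add τ0.le τ0.le, ← ENNReal.ofReal_mul c0.le,
      ← ENNReal.ofReal_add (by positivity) (by positivity), ← ENNReal.ofReal_mul two_pi_pos.le, hτ]
    congr 1
    field_simp
    ring
  have h5 := m0.trans_le (hm θ hθ)
  refine ⟨norm_pos_iff.1 h5, ?_⟩
  have h6 : Mo a s (circleMap 0 1 θ) = (Mo a s (circleMap 0 1 θ)).re :=
    Complex.ext rfl (by simp [Mo_im])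
  have h7 : (Mo a s (circleMap 0 1 θ)).re ∈ Metric.ball a ρ := by
    rw [Metric.mem_ball, Real.dist_eq, ← Complex.ofReal_re a, ← sub_re, Complex.ofReal_re]
    refine (abs_re_le_norm _).trans_lt ?_
    rw [Mo, add_sub_cancel_left, norm_mul, norm_mul, norm_I, one_mul, norm_div, norm_real,
      Real.norm_of_nonneg hs.1.le, ← mul_div_assoc, div_lt_iff₀ h5]
    have h8 : ‖1 + circleMap 0 1 θ‖ ≤ 2 := (norm_add_le _ _).trans_eq (by simp; norm_num)
    nlinarith [mul_le_mul_of_nonneg_left h8 hs.1.le, mul_le_mul_of_nonneg_left (hm θ hθ) ρ0.le,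
      hs.2]
  rw [h6]
  filter_upwards [h3 _ (hρ h7).1 (le_of_lt (hρ h7).2), self_mem_nhdsWithin]
    with z hz hz'
  exact (hE d M σ w0 z δ hσ h2 hz' hδ).trans (mul_le_mul_right hz _)

end Crest.Agent.N334.AC.E
end

-- ▼ part N334/AC/E/Vol
section

/-!
# Row 334, S0520, part E (helper40): the infinite-volume limit at fixed `η`
-/

set_option autoImplicit false

open MeasureTheory Finset Matrix Complex Function Filter Topology

namespace Crest.Agent.N334.AC.E

open Crest.MathPhysics Crest.MathPhysics.Anderson Crest.Agent.N334.Soft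

namespace Vol

/-- restriction of the field along an injection preserves the site measure -/
lemma mp {Λ Λ' : Type} {e : Λ' → Λ} (he : Injective e) :
    MeasurePreserving (fun ω : Λ → unitInterval => ω ∘ e) (siteMeasure Λ) (siteMeasure Λ') := by
  have hm : Measurable fun ω : Λ → unitInterval => ω ∘ e :=
    measurable_pi_lambda _ fun j => measurable_pi_apply (e j)
  refine ⟨hm, Measure.eq_infinitePi _ fun s t ht => ?_⟩
  rw [Measure.map_apply hm (.pi s.countable_toSet fun i _ => ht i)]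
  have h1 : (fun ω : Λ → unitInterval => ω ∘ e) ⁻¹' Set.pi s t =
      Set.pi (s.map ⟨e, he⟩) (extend e t fun _ => Set.univ) := by
    ext ω
    simp [Set.mem_pi, he.extend_apply]
  rw [h1, siteMeasure, Measure.infinitePi_pi, prod_map]
  · simp [he.extend_apply]
  · intro i hi
    obtain ⟨j, -, rfl⟩ := mem_map.1 hi
    simpa [he.extend_apply] using ht j

/-- a-priori bound for a strictly dissipative system -/
lemma apriori {ι : Type} [Fintype ι] [DecidableEq ι] {A : Matrix ι ι ℂ} {w : ι → ℂ} (h : Adm A w)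
    {η : ℝ} (hη : 0 < η) (hw : ∀ a, η ≤ gam w a) {v r : ι → ℂ} {o : ι}
    (hv : Hm A w *ᵥ v = Pi.single o 1 + r) : ‖Gm A w o o - v o‖ ≤ η⁻¹ * √(nsq r) := by
  have h1 : v = Gm A w *ᵥ (Pi.single o 1 + r) := by
    rw [← hv, mulVec_mulVec, Gm, nonsing_inv_mul _ h.inv, one_mulVec]
  have h2 : Gm A w o o - v o = -(Gm A w o ⬝ᵥ r) := by
    rw [h1, mulVec_add, Pi.add_apply, mulVec_single_one]
    simp [mulVec]
  have h3 : η * nsq (Gm A w o) ≤ η⁻¹ := by
    refine le_trans ?_ ((ward h o).le.trans ((im_le_norm _).trans (norm_diag_le h hη (hw o))))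
    rw [nsq, mul_sum]
    exact sum_le_sum fun a _ => by
      rw [G_symm h.symm w o a]; exact mul_le_mul_of_nonneg_right (hw a) (sq_nonneg _)
  rw [← le_inv_mul_iff₀ hη, ← sq] at h3
  rw [h2, norm_neg]
  refine le_of_sq_le_sq ((cs' _ _).trans ?_) (by positivity)
  rw [mul_pow, Real.sq_sqrt (nsq_nonneg r)]
  exact mul_le_mul_of_nonneg_right h3 (nsq_nonneg r)

variable {d M ρ : ℕ} [NeZero M]

/-- the torus as a box around `x` -/
def emb (x : Fin d → ℤ) (y : Tor d M) : Fin d → ℤ := fun j => x j + (y j).valMinAbs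

omit [NeZero M] in
lemma emb_inj (x : Fin d → ℤ) : Injective (emb (M := M) x) := fun _ _ h =>
  funext fun j => ZMod.injective_valMinAbs (add_left_cancel (congrFun h j))

omit [NeZero M] in
lemma emb_zero (x : Fin d → ℤ) : emb x (0 : Tor d M) = x := by
  funext j; simp [emb]

lemma vma_add (hρ : 4 * (ρ + 1) ≤ M) (a : ZMod M) {s : ℤ} (hs : |s| ≤ 1)
    (h : |(a + s).valMinAbs| ≤ ρ ∨ |a.valMinAbs + s| ≤ ρ) :
    (a + s).valMinAbs = a.valMinAbs + s := by
  rw [abs_le] at hs
  rcases h with h | h <;> rw [abs_le] at h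
  · rw [← sub_eq_iff_eq_add, eq_comm, ZMod.valMinAbs_spec]
    exact ⟨by simp, by omega, by omega⟩
  · rw [ZMod.valMinAbs_spec]
    exact ⟨by simp, by omega, by omega⟩

lemma loc (hρ : 4 * (ρ + 1) ≤ M) {x : Fin d → ℤ} {f : (Fin d → ℤ) → ℂ}
    (hf : ∀ z, f z ≠ 0 → ∀ j, |z j - x j| ≤ ρ) (y : Tor d M) (j : Fin d) {s : ℤ} (hs : |s| ≤ 1) :
    f (emb x (y + Pi.single j (s : ZMod M))) = f (emb x y + Pi.single j s) := by
  by_cases h : |(y j + s).valMinAbs| ≤ ρ ∨ |(y j).valMinAbs + s| ≤ ρ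
  · congr 1; funext i
    by_cases hi : i = j
    · subst hi; simp [emb, vma_add hρ _ hs h, add_assoc]
    · simp [emb, hi]
  · rw [not_or] at h
    have h1 : f (emb x (y + Pi.single j (s : ZMod M))) = 0 := by
      by_contra h0; exact h.1 (by simpa [emb] using hf _ h0 j)
    have h2 : f (emb x y + Pi.single j s) = 0 := by
      by_contra h0; exact h.2 (by simpa [emb, add_assoc] using hf _ h0 j)
    rw [h1, h2]

lemma Hm_emb (hρ : 4 * (ρ + 1) ≤ M) {x : Fin d → ℤ} {f : (Fin d → ℤ) → ℂ}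
    (hf : ∀ z, f z ≠ 0 → ∀ j, |z j - x j| ≤ ρ) (σ : ℝ) (w0 z : ℂ)
    (ω : (Fin d → ℤ) → unitInterval) (y : Tor d M) :
    (Hm (hop d M) (wz σ w0 z (ω ∘ emb x)) *ᵥ (f ∘ emb x)) y =
      applyOp d (-1) (fun x => σ * centredPotential ω x) f (emb x y) - z * f (emb x y) := by
  have h1 : ∑ b, hop d M y b * (f ∘ emb x) b =
      -∑ j : Fin d, (f (emb x y + Pi.single j 1) + f (emb x y - Pi.single j 1)) := by
    simp only [hop, neg_mul, sum_neg_distrib, neg_inj, sum_mul, add_mul, ite_mul, one_mul,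
      zero_mul]
    rw [sum_comm]
    refine sum_congr rfl fun j _ => ?_
    have e1 := loc hρ hf y j (s := 1) (by simp)
    have e2 := loc hρ hf y j (s := -1) (by simp)
    simp only [Int.cast_one, Int.cast_neg, Pi.single_neg, ← sub_eq_add_neg] at e1 e2
    simp [sum_add_distrib, e1, e2]
  rw [Hm_mulVec, h1, applyOp]
  by_cases hy : y ∈ absb d M
  · have h2 : f (emb x y) = 0 := by
      by_contra h0
      obtain ⟨j, -, hj⟩ := (mem_filter.1 hy).2
      have := hf _ h0 j
      simp only [emb, add_sub_cancel_left, abs_le] at this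
      omega
    simp [h2]
  · simp only [wz, wr, mem_compl, hy, not_false_eq_true, if_true, Function.comp_apply,
      centredPotential]
    push_cast; ring

/-- the box of radius `ρ` around `x` -/
noncomputable def bo (x : Fin d → ℤ) (ρ : ℕ) : Finset (Fin d → ℤ) :=
  Fintype.piFinset fun j => Icc (x j - ρ) (x j + ρ)

lemma tendsto_out (x : Fin d → ℤ) (u : Ell2 d) :
    Tendsto (fun R => out (bo x R) u) atTop (𝓝 0) := by
  have h1 : Tendsto (bo x) atTop atTop := tendsto_atTop_finset_of_monotone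
    (fun R R' h => Fintype.piFinset_subset _ _ fun j => Icc_subset_Icc (by omega) (by omega))
    fun z => ⟨univ.sup fun j => (z j - x j).natAbs, Fintype.mem_piFinset.2 fun j => by
      have := le_sup (f := fun j => (z j - x j).natAbs) (mem_univ j)
      simp only [mem_Icc]; omega⟩
  have h2 := ((lp.hasSum_single (by norm_num) u).comp h1).const_sub u |>.norm
  rwa [sub_self, norm_zero] at h2

lemma close (hρ : 4 * (ρ + 1) ≤ M) (σ a : ℝ) {η : ℝ} (hη : 0 < η) {w0 : ℂ} (h0 : w0.im ≤ 0)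
    (x : Fin d → ℤ) (ω : (Fin d → ℤ) → unitInterval) :
    ‖gM (M := M) σ w0 ⟨a, η⟩ (ω ∘ emb x) - End.g (-1) σ a η ω x x‖ ≤
      η⁻¹ * (‖End.Hm (-1) σ ω - (⟨a, η⟩ : ℂ) • 1‖ *
        out (bo x ρ) (End.G (End.Hm (-1) σ ω) ⟨a, η⟩ (End.dl x))) := by
  have hu := End.HG (H := End.Hm (-1) σ ω) (z := ⟨a, η⟩) End.Hm_sa hη.ne' (End.dl x)
  rw [End.g]
  set u := End.G (End.Hm (-1) σ ω) ⟨a, η⟩ (End.dl x)
  set T := End.Hm (-1) σ ω - (⟨a, η⟩ : ℂ) • (1 : Ell2 d →L[ℂ] Ell2 d) with hT
  have hf : ∀ z, fs (bo x ρ) u z ≠ 0 → ∀ j, |z j - x j| ≤ ρ := fun z hz j => by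
    have : z ∈ bo x ρ := by by_contra h; exact hz (by simp [fs_apply, h])
    have := mem_Icc.1 (Fintype.mem_piFinset.1 this j)
    rw [abs_le]; omega
  have h1 : Hm (hop d M) (wz σ w0 ⟨a, η⟩ (ω ∘ emb x)) *ᵥ (fs (bo x ρ) u ∘ emb x) =
      Pi.single 0 1 + (T (fs (bo x ρ) u - u)) ∘ emb x := by
    funext y
    have e1 : T (fs (bo x ρ) u - u) = T (fs (bo x ρ) u) - End.dl x := by
      rw [map_sub, ← hu]; rfl
    have e2 : T (fs (bo x ρ) u) (emb x y) = applyOp d (-1) (fun x => σ * centredPotential ω x)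
        (fs (bo x ρ) u) (emb x y) - ⟨a, η⟩ * fs (bo x ρ) u (emb x y) := by
      rw [← pot_apply, ← latticeOp_apply]; rfl
    have e3 : End.dl x (emb x y) = (Pi.single 0 1 : Tor d M → ℂ) y := by
      have e4 : emb x y = x ↔ y = 0 := by
        rw [← (emb_inj x).eq_iff, emb_zero]
      simp only [lp.single_apply, Pi.single_apply, e4]
    rw [Hm_emb hρ hf, Pi.add_apply, Function.comp_apply, e1, lp.coeFn_sub, Pi.sub_apply, e2, e3]
    ring
  have h2 := apriori (wz_adm σ h0 (z := ⟨a, η⟩) hη _) hη (le_gam_wz σ h0 ⟨a, η⟩ _) h1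
  have h3 : (fs (bo x ρ) u ∘ emb x) (0 : Tor d M) = u x := by
    rw [Function.comp_apply, emb_zero, fs_apply, if_pos]
    exact Fintype.mem_piFinset.2 fun j => mem_Icc.2 (by omega)
  rw [h3] at h2
  refine h2.trans (mul_le_mul_of_nonneg_left ?_ (by positivity))
  refine le_trans ?_ ((T.le_opNorm (fs (bo x ρ) u - u)).trans_eq (by rw [out, norm_sub_rev u]))
  rw [Real.sqrt_le_left (norm_nonneg _)]
  have h4 := lp.sum_rpow_le_norm_rpow (p := 2) (by norm_num) (T (fs (bo x ρ) u - u))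
    (univ.map ⟨emb (M := M) x, emb_inj x⟩)
  simpa [nsq] using h4

end Vol

open Vol in
/-- leaf E/Vol -/
theorem vol_lim : VolStmt := by
  intro d σ _ hF x ε hε
  obtain ⟨K, hK⟩ := hF ε hε
  refine ⟨K, fun a ha => ?_⟩
  filter_upwards [hK a ha, self_mem_nhdsWithin] with η hη hη0
  have hη0 : 0 < η := hη0
  choose M hM hMn w0 _ hw hI using fun n => hη (4 * (n + 1))
  have hm : ∀ n, Measurable fun ω : Tor d (M n) → unitInterval =>
      ENNReal.ofReal ((gM σ (w0 n) ⟨a, η⟩ ω).im - K) := fun n =>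
    ((measurable_im.comp (measurable_gM σ (w0 n) measurable_const measurable_id)).sub_const
      K).ennreal_ofReal
  refine le_trans (lintegral_mono fun ω => ?_) ((lintegral_liminf_le (u := atTop) fun n =>
    (hm n).comp (mp (emb_inj x)).measurable).trans (liminf_le_of_frequently_le'
      (Frequently.of_forall fun n => ?_)))
  · have h1 : Tendsto (fun n => gM (M := M n) σ (w0 n) ⟨a, η⟩ (ω ∘ emb x)) atTop
        (𝓝 (End.g (-1) σ a η ω x x)) :=
      tendsto_iff_norm_sub_tendsto_zero.2 (squeeze_zero (fun _ => norm_nonneg _)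
        (fun n => close (hMn n) σ a hη0 (hw n) x ω)
        (by simpa using ((tendsto_out x _).const_mul _).const_mul _))
    exact (ENNReal.tendsto_ofReal (((continuous_im.tendsto _).comp h1).sub_const K)).liminf_eq.ge
  · exact ((mp (emb_inj x)).lintegral_comp (hm n)).trans_le (hI n)

end Crest.Agent.N334.AC.E
end

-- ▼ part N334/AC/E/ACd
section

/-!
# Row 334, S0520, part E: uniform integrability gives absolute continuity (helper17)
-/

set_option autoImplicit false

open MeasureTheory Filter Topology Set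
open scoped ENNReal

namespace Crest.Agent.N334.AC.E

open Crest.MathPhysics Crest.MathPhysics.Anderson Crest.Agent.N334.End

namespace ACd

lemma int_pk_ge {η r : ℝ} (hη : 0 < η) (h : η ≤ r) (l : ℝ) :
    1 ≤ ∫ a in l - r..l + r, pk η (l - a) := by
  rw [intervalIntegral.integral_eq_sub_of_hasDerivAt (f := fun a => -Real.arctan ((l - a) / η))
    (fun a _ => ?_) ((cont_pk' hη l).intervalIntegrable _ _)]
  · have h1 := Real.arctan_strictMono.monotone ((one_le_div hη).2 h)
    rw [Real.arctan_one] at h1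
    rw [show (l - (l + r)) / η = -(r / η) by ring, show (l - (l - r)) / η = r / η by ring,
      Real.arctan_neg]
    linarith [Real.pi_gt_three]
  · refine ((((hasDerivAt_id' a).const_sub l).div_const η).arctan).neg.congr_deriv ?_
    simp only [pk]; field_simp; ring

/-- the Poisson smoothing dominates `f - t` -/
lemma ker_ge {f : ℝ → ℝ} (hf : Continuous f) (h0 : ∀ t, 0 ≤ f t) {α β : ℝ}
    (hs : Function.support f ⊆ Ioo α β) {t : ℝ} (ht : 0 < t) :
    ∃ r > (0 : ℝ), ∀ η, 0 < η → η ≤ r → ∀ l, f l - t ≤ ∫ a in α..β, f a * pk η (l - a) := by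
  have hc : HasCompactSupport f := HasCompactSupport.intro (isCompact_Icc (a := α) (b := β))
    fun x hx => Function.notMem_support.1 fun h => hx (Ioo_subset_Icc_self (hs h))
  obtain ⟨ρ, hρ, hu⟩ := Metric.uniformContinuous_iff.1 (hc.uniformContinuous_of_continuous hf) t ht
  refine ⟨ρ / 2, half_pos hρ, fun η hη h l => ?_⟩
  have hk : Continuous fun a => f a * pk η (l - a) := hf.mul (cont_pk' hη l)
  have hn : ∀ a, 0 ≤ f a * pk η (l - a) := fun a => mul_nonneg (h0 a) (pk_nonneg hη.le _)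
  rw [intervalIntegral.integral_eq_integral_of_support_subset
    (((Function.support_mul_subset_left _ _).trans hs).trans Ioo_subset_Ioc_self)]
  rcases le_total (f l - t) 0 with e | e
  · exact e.trans (integral_nonneg hn)
  have hle : l - ρ / 2 ≤ l + ρ / 2 := by linarith
  calc f l - t ≤ (f l - t) * ∫ a in l - ρ / 2..l + ρ / 2, pk η (l - a) :=
        le_mul_of_one_le_right e (int_pk_ge hη h l)
    _ = ∫ a in l - ρ / 2..l + ρ / 2, (f l - t) * pk η (l - a) :=
        (intervalIntegral.integral_const_mul _ _).symm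
    _ ≤ ∫ a in l - ρ / 2..l + ρ / 2, f a * pk η (l - a) := by
        refine intervalIntegral.integral_mono_on hle
          ((continuous_const.mul (cont_pk' hη l)).intervalIntegrable _ _)
          (hk.intervalIntegrable _ _) fun a ha =>
          mul_le_mul_of_nonneg_right ?_ (pk_nonneg hη.le _)
        have := hu (a := l) (b := a) (by
          rw [Real.dist_eq, abs_lt]; constructor <;> linarith [ha.1, ha.2])
        rw [Real.dist_eq, abs_lt] at this
        linarith [this.2]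
    _ ≤ _ := by
        rw [intervalIntegral.integral_of_le hle]
        exact setIntegral_le_integral (hk.integrable_of_hasCompactSupport hc.mul_right)
          (Eventually.of_forall hn)

/-- the deterministic part -/
lemma qf_le {d : ℕ} {H : Ell2 d →L[ℂ] Ell2 d} (hH : IsSelfAdjoint H) {ψ : Ell2 d} (hψ : ‖ψ‖ = 1)
    {f : ℝ → ℝ} (hf : Continuous f) (h0 : ∀ t, 0 ≤ f t ∧ f t ≤ 1) {α β : ℝ} (hαβ : α ≤ β)
    (hs : Function.support f ⊆ Ioo α β) {t η K τ : ℝ} (hη : 0 < η) (hτ : 0 ≤ τ)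
    (hk : ∀ l, f l - t ≤ ∫ a in α..β, f a * pk η (l - a)) {u : ℝ → ℝ} (hu : Continuous u)
    (he : ∀ a, qf H ψ (fun l => pk η (l - a)) = u a)
    (hT : ∫⁻ a in Ioo α β, ENNReal.ofReal (u a - K) ≤ ENNReal.ofReal τ) :
    qf H ψ f ≤ t + K * (∫ a, f a) + τ := by
  have hk2 : Continuous (Function.uncurry fun a l => f a * pk η (l - a)) :=
    (hf.comp continuous_fst).mul (cont_pk2 hη)
  have h1 := qf_int hH ψ hk2 α β
  simp only [qf_mul _ _ (cont_pk hη _), he] at h1
  have h2 := qf_mono (H := H) ψ (f := fun l => f l + -t) (hf.add continuous_const)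
    (intervalIntegral.continuous_parametric_intervalIntegral_of_continuous'
      (f := fun l a => f a * pk η (l - a)) (hk2.comp continuous_swap) α β) fun l _ => hk l
  rw [← h1, qf_add _ hf continuous_const, qf_const hH, hψ] at h2
  have hm : Continuous fun a => max (u a - K) 0 := (hu.sub continuous_const).max continuous_const
  have h3 : ∫ a in α..β, f a * u a ≤ ∫ a in α..β, (K * f a + max (u a - K) 0) :=
    intervalIntegral.integral_mono_on hαβ ((hf.mul hu).intervalIntegrable _ _)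
      (((continuous_const.mul hf).add hm).intervalIntegrable _ _) fun a _ => by
        nlinarith [mul_le_mul_of_nonneg_left (le_max_left (u a - K) 0) (h0 a).1,
          mul_le_of_le_one_left (le_max_right (u a - K) 0) (h0 a).2]
  rw [intervalIntegral.integral_add (f := fun a => K * f a)
    ((continuous_const.mul hf).intervalIntegrable _ _)
    (hm.intervalIntegrable _ _), intervalIntegral.integral_const_mul,
    intervalIntegral.integral_eq_integral_of_support_subset (hs.trans Ioo_subset_Ioc_self)] at h3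
  have h4 : ∫ a in α..β, max (u a - K) 0 ≤ τ := by
    rw [intervalIntegral.integral_of_le hαβ, integral_Ioc_eq_integral_Ioo,
      integral_eq_lintegral_of_nonneg_ae (f := fun a => max (u a - K) 0)
        (Eventually.of_forall fun a => le_max_right _ _)
        hm.aestronglyMeasurable]
    refine ENNReal.toReal_le_of_le_ofReal hτ (le_of_eq_of_le ?_ hT)
    simp only [ENNReal.ofReal_max, ENNReal.ofReal_zero, zero_le, max_eq_left]
  linarith

lemma eta_pos (n : ℕ) : (0 : ℝ) < 1 / ((n : ℝ) + 1) := by positivity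

lemma tendsto_eta : Tendsto (fun n : ℕ => 1 / ((n : ℝ) + 1)) atTop (𝓝[>] 0) :=
  tendsto_nhdsWithin_iff.2 ⟨tendsto_one_div_add_atTop_nhds_zero_nat,
    Eventually.of_forall fun n => eta_pos n⟩

variable {d : ℕ} {σ : ℝ}

/-- the excess above the level `K` -/
noncomputable def TT (d : ℕ) (σ : ℝ) (x : Fin d → ℤ) (K : ℝ) (ω : (Fin d → ℤ) → unitInterval) :
    ℝ≥0∞ :=
  liminf (fun n : ℕ => ∫⁻ a in Win d,
    ENNReal.ofReal ((g (-1) σ a (1 / ((n : ℝ) + 1)) ω x x).im - K)) atTop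

lemma meas_F (x : Fin d → ℤ) (K : ℝ) (n : ℕ) :
    Measurable fun p : ((Fin d → ℤ) → unitInterval) × ℝ =>
      ENNReal.ofReal ((g (-1) σ p.2 (1 / ((n : ℝ) + 1)) p.1 x x).im - K) :=
  ((Complex.continuous_im.comp (cont_g (eta_pos n) x x)).sub
    continuous_const).measurable.ennreal_ofReal

lemma meas_TT (x : Fin d → ℤ) (K : ℝ) : Measurable (TT d σ x K) :=
  Measurable.liminf fun n => (meas_F x K n).lintegral_prod_right' (ν := volume.restrict (Win d))

lemma vol_Win : volume (Win d) ≤ 1 := by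
  rw [Win, Real.volume_Ioo]
  exact ENNReal.ofReal_le_one.2 (by norm_num)

lemma lint_TT (hσ : 0 < σ) {x : Fin d → ℤ} (h : UI d σ x) {ε : ℝ} (hε : 0 < ε) :
    ∃ K, 0 ≤ K ∧ ∫⁻ ω, TT d σ x K ω ∂siteMeasure _ ≤ ENNReal.ofReal ε := by
  obtain ⟨K, hK⟩ := h ε hε
  refine ⟨max K 0, le_max_right _ _, (lintegral_liminf_le fun n =>
    (meas_F x _ n).lintegral_prod_right' (ν := volume.restrict (Win d))).trans ?_⟩
  simp only [fun n : ℕ => lintegral_lintegral_swap (μ := siteMeasure (Fin d → ℤ))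
    (ν := volume.restrict (Win d))
    (f := fun ω a => ENNReal.ofReal ((g (-1) σ a (1 / ((n : ℝ) + 1)) ω x x).im - max K 0))
    (meas_F x (max K 0) n).aemeasurable]
  refine le_trans liminf_le_limsup ((limsup_lintegral_le
    (fun _ => ENNReal.ofReal (Real.pi / (2 * σ)))
    (fun n => (meas_F x _ n).lintegral_prod_left' (μ := siteMeasure (Fin d → ℤ)))
    (fun n => Eventually.of_forall fun a => le_trans (lintegral_mono fun ω =>
      ENNReal.ofReal_le_ofReal (sub_le_self _ (le_max_right _ _))) (wegner hσ (eta_pos n) x))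
    ?_).trans ?_)
  · rw [setLIntegral_const]
    exact ENNReal.mul_ne_top ENNReal.ofReal_ne_top (ne_top_of_le_ne_top ENNReal.one_ne_top vol_Win)
  · refine (setLIntegral_mono' (g := fun _ => ENNReal.ofReal ε) measurableSet_Ioo
      fun a ha => limsup_le_of_le (h := ?_)).trans ?_
    · filter_upwards [tendsto_eta.eventually (hK a ha)] with n hn
      exact le_trans (lintegral_mono fun ω =>
        ENNReal.ofReal_le_ofReal (sub_le_sub_left (le_max_left _ _) _)) hn
    · rw [setLIntegral_const]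
      exact mul_le_of_le_one_right zero_le vol_Win

end ACd

open ACd in
theorem acd : ACdStmt := by
  intro d σ hσ x h
  choose K hK0 hK using fun m : ℕ => lint_TT hσ h (eta_pos m)
  have h4 : ∫⁻ ω, ⨅ m, TT d σ x (K m) ω ∂siteMeasure _ = 0 := by
    have := ENNReal.tendsto_ofReal (tendsto_one_div_add_atTop_nhds_zero_nat (𝕜 := ℝ))
    rw [ENNReal.ofReal_zero] at this
    exact le_antisymm (ge_of_tendsto' this fun m =>
      (lintegral_mono fun ω => iInf_le _ m).trans (hK m)) zero_le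
  filter_upwards [(lintegral_eq_zero_iff (Measurable.iInf fun m => meas_TT x (K m))).1 h4]
    with ω hω ε hε
  have h3 : 0 < ε / 3 := by positivity
  obtain ⟨m, hm⟩ := iInf_lt_iff.1 (hω.trans_lt (ENNReal.ofReal_pos.2 h3))
  have k0 := hK0 m
  refine ⟨ε / 3 / (K m + 1), by positivity, fun f hf h0 hs hi => ?_⟩
  obtain ⟨r, hr, hk⟩ := ker_ge hf (fun t => (h0 t).1) hs h3
  obtain ⟨n, h1, h2⟩ := ((frequently_lt_of_liminf_lt (h := hm)).and_eventually
    ((tendsto_one_div_add_atTop_nhds_zero_nat (𝕜 := ℝ)).eventually (eventually_le_nhds hr))).exists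
  have key := qf_le (H := End.Hm (-1) σ ω) Hm_sa (ψ := dl x) (by simp) hf h0 (by norm_num) hs
    (eta_pos n) h3.le (hk _ (eta_pos n) h2)
    (Complex.continuous_im.comp ((cont_g (eta_pos n) x x).comp (Continuous.prodMk_right ω)))
    (fun a => qf_dl (eta_pos n) x) h1.le
  have h5 : K m * ∫ a, f a ≤ ε / 3 := by
    refine (mul_le_mul_of_nonneg_left hi k0).trans ?_
    rw [← mul_div_assoc, div_le_iff₀ (by positivity)]
    nlinarith
  linarith

end Crest.Agent.N334.AC.E
end

-- ▼ part N334/AC/E/Dens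
section

/-!
# Row 334, S0520, part E: the density (typed by helper66 after helper20's sketch)
-/

set_option autoImplicit false

open MeasureTheory Filter Topology Complex
open scoped InnerProductSpace CompactlySupported ENNReal

namespace Crest.Agent.N334.AC.E

open Crest.MathPhysics Crest.MathPhysics.Anderson End

namespace Dens

section General

variable {E : Type} [NormedAddCommGroup E] [InnerProductSpace ℂ E] [CompleteSpace E]
  {H : E →L[ℂ] E} {f : ℝ → ℝ}

lemma qf_eq_sq (ψ : E) (hf : Continuous f) (h0 : ∀ t, 0 ≤ f t) :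
    qf H ψ f = ‖cfc (fun t => √(f t)) H ψ‖ ^ 2 := by
  have hs : IsSelfAdjoint (cfc (fun t => √(f t)) H) := cfc_predicate _ _
  have e : cfc f H = cfc (fun t => √(f t)) H * cfc (fun t => √(f t)) H := by
    rw [← cfc_mul _ _ H]
    exact cfc_congr fun t _ => (Real.mul_self_sqrt (h0 t)).symm
  rw [qf, e, mul_apply_eq_comp]
  exact ((inner_self_eq_norm_sq (𝕜 := ℂ) _).symm.trans (congrArg re (hs.isSymmetric ψ _))).symm

lemma qf_nonneg (ψ : E) (hf : Continuous f) (h0 : ∀ t, 0 ≤ f t) : 0 ≤ qf H ψ f := by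
  rw [qf_eq_sq ψ hf h0]; positivity

lemma qf_add_le (ψ φ : E) (hf : Continuous f) (h0 : ∀ t, 0 ≤ f t) :
    qf H (ψ + φ) f ≤ 2 * qf H ψ f + 2 * qf H φ f := by
  simp only [qf_eq_sq _ hf h0, map_add]
  generalize cfc (fun t => √(f t)) H ψ = u
  generalize cfc (fun t => √(f t)) H φ = v
  nlinarith [pow_le_pow_left₀ (norm_nonneg _) (norm_add_le u v) 2, sq_nonneg (‖u‖ - ‖v‖)]

lemma qf_smul (c : ℂ) (ψ : E) (hf : Continuous f) (h0 : ∀ t, 0 ≤ f t) :
    qf H (c • ψ) f = ‖c‖ ^ 2 * qf H ψ f := by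
  simp only [qf_eq_sq _ hf h0, map_smul, norm_smul, mul_pow]

lemma qf_le (hH : IsSelfAdjoint H) (ψ : E) (hf : Continuous f) (h1 : ∀ t, f t ≤ 1) :
    qf H ψ f ≤ ‖ψ‖ ^ 2 :=
  (qf_mono ψ hf continuous_const fun l _ => h1 l).trans_eq (by rw [qf_const hH, one_mul])

/-- the positive functional of a vector -/
noncomputable def Lam (H : E →L[ℂ] E) (ψ : E) : C_c(ℝ, ℝ) →ₚ[ℝ] ℝ :=
  PositiveLinearMap.mk₀
    { toFun := fun f => qf H ψ f
      map_add' := fun f g => qf_add ψ f.continuous g.continuous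
      map_smul' := fun c f => qf_mul ψ c f.continuous }
    fun f hf => qf_nonneg ψ f.continuous hf

lemma inner_cfc (hH : IsSelfAdjoint H) (ψ : E) (f : ℝ → ℝ) :
    ⟪ψ, cfc (fun z : ℂ => ((f z.re : ℝ) : ℂ)) H ψ⟫_ℂ = (qf H ψ f : ℂ) := by
  have hs : IsSelfAdjoint (cfc f H) := cfc_predicate _ _
  rw [← cfc_real_eq_complex f hH]
  exact Complex.ext rfl (hs.isSymmetric.im_inner_self_apply ψ)

end General

variable {d : ℕ} {H : Ell2 d →L[ℂ] Ell2 d} {I : Set ℝ}

lemma acv_zero : ACv H I 0 := fun ε hε => ⟨1, one_pos, fun f _ _ _ _ => by simp [qf, hε.le]⟩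

lemma acv_add {ψ φ : Ell2 d} (h1 : ACv H I ψ) (h2 : ACv H I φ) : ACv H I (ψ + φ) := by
  intro ε hε
  obtain ⟨δ1, p1, h1⟩ := h1 (ε / 4) (by positivity)
  obtain ⟨δ2, p2, h2⟩ := h2 (ε / 4) (by positivity)
  refine ⟨min δ1 δ2, lt_min p1 p2, fun f hf h01 hs hi => ?_⟩
  linarith [qf_add_le (H := H) ψ φ hf fun t => (h01 t).1, h1 f hf h01 hs (hi.trans (min_le_left _ _)),
    h2 f hf h01 hs (hi.trans (min_le_right _ _))]

lemma acv_smul (c : ℂ) {ψ : Ell2 d} (h : ACv H I ψ) : ACv H I (c • ψ) := by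
  intro ε hε
  obtain ⟨δ, p, h⟩ := h (ε / (‖c‖ ^ 2 + 1)) (by positivity)
  refine ⟨δ, p, fun f hf h01 hs hi => ?_⟩
  have h1 := (le_div_iff₀ (by positivity)).1 (h f hf h01 hs hi)
  rw [qf_smul c ψ hf fun t => (h01 t).1]
  linarith [qf_nonneg (H := H) ψ hf fun t => (h01 t).1]

lemma acv_all (hH : IsSelfAdjoint H) (h : ∀ x, ACv H I (dl x)) (ψ : Ell2 d) : ACv H I ψ := by
  intro ε hε
  have hs := lp.hasSum_single (p := 2) (by simp) ψ
  obtain ⟨s, hs⟩ := (Metric.tendsto_nhds.1 hs (√(ε / 4)) (by positivity)).exists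
  have h1 : ACv H I (∑ x ∈ s, lp.single 2 x (ψ x)) :=
    Finset.sum_induction _ (ACv H I) (fun _ _ => acv_add) acv_zero fun x _ => by
      have := acv_smul (ψ x) (h x)
      rwa [← lp.single_smul, smul_eq_mul, mul_one] at this
  obtain ⟨δ, p, h1⟩ := h1 (ε / 4) (by positivity)
  refine ⟨δ, p, fun f hf h01 hs' hi => ?_⟩
  rw [dist_comm, dist_eq_norm] at hs
  generalize ∑ x ∈ s, lp.single 2 x (ψ x) = φ at h1 hs
  have h2 := qf_add_le (H := H) φ (ψ - φ) hf fun t => (h01 t).1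
  have h3 := qf_le hH (ψ - φ) hf fun t => (h01 t).2
  have h4 := pow_le_pow_left₀ (norm_nonneg _) hs.le 2
  rw [Real.sq_sqrt (by positivity)] at h4
  rw [add_sub_cancel] at h2
  linarith [h1 f hf h01 hs' hi]

lemma ac (hI : IsOpen I) {ψ : Ell2 d} (h : ACv H I ψ) :
    (RealRMK.rieszMeasure (Lam H ψ)).restrict I ≪ volume := by
  refine Measure.AbsolutelyContinuous.mk fun A hA h0 => ?_
  rw [Measure.restrict_apply hA]
  refine le_antisymm (ENNReal.le_of_forall_pos_le_add fun ε hε _ => ?_) zero_le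
  obtain ⟨δ, p, h⟩ := h ε hε
  obtain ⟨U, hAU, hU, hUδ⟩ := A.exists_isOpen_lt_of_lt (μ := volume) (ENNReal.ofReal δ)
    (by rw [h0]; exact ENNReal.ofReal_pos.2 p)
  rw [zero_add]
  refine (measure_mono (Set.inter_subset_inter_left I hAU)).trans (not_lt.1 fun hh => ?_)
  obtain ⟨K, hKU, hK, hlt⟩ := (hU.inter hI).exists_lt_isCompact hh
  obtain ⟨f, f1, fc, fs, f01⟩ :=
    exists_continuousMap_one_of_isCompact_subset_isOpen hK (hU.inter hI) hKU
  have hs : Function.support f ⊆ U ∩ I := (subset_tsupport _).trans fs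
  have h1 : ∫ t, f t ≤ δ := by
    rw [← setIntegral_eq_integral_of_forall_compl_eq_zero (s := U)
      fun t ht => Function.notMem_support.1 fun h => ht (hs h).1]
    refine (Real.le_norm_self _).trans ((norm_setIntegral_le_of_norm_le_const (C := 1)
      (hUδ.trans ENNReal.ofReal_lt_top) fun t _ => ?_).trans ?_)
    · rw [Real.norm_of_nonneg (f01 t).1]; exact (f01 t).2
    · rw [one_mul]; exact ENNReal.toReal_le_of_le_ofReal p.le hUδ.le
  have h2 := RealRMK.rieszMeasure_le_of_eq_one (Lam H ψ) (f := ⟨f, fc⟩) (fun t => (f01 t).1) hK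
    fun t ht => f1 ht
  have h3 : ENNReal.ofReal (Lam H ψ ⟨f, fc⟩) ≤ ε :=
    ENNReal.ofReal_le_coe.2 (h f f.continuous f01 (fun t ht => (hs ht).2) h1)
  exact absurd (hlt.trans_le (h2.trans h3)) (lt_irrefl _)

end Dens

open Dens in
theorem dens : DensStmt := by
  intro d H hH α β h ψ
  have hac := ac isOpen_Ioo (acv_all hH h ψ)
  set μ := RealRMK.rieszMeasure (Lam H ψ)
  have : IsFiniteMeasure (μ.restrict (Set.Ioo α β)) := isFiniteMeasure_restrict.2
    ((measure_mono Set.Ioo_subset_Icc_self).trans_lt isCompact_Icc.measure_lt_top).ne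
  refine ⟨fun t => ((μ.restrict (Set.Ioo α β)).rnDeriv volume t).toReal,
    Measure.integrable_toReal_rnDeriv.integrableOn, fun f hf hs => ?_⟩
  have h0 : ∀ t, t ∉ Set.Ioo α β → f t = 0 := fun t ht => Function.notMem_support.1 fun h => ht (hs h)
  have hc : HasCompactSupport f :=
    HasCompactSupport.intro isCompact_Icc fun t ht => h0 t fun h => ht (Set.Ioo_subset_Icc_self h)
  rw [inner_cfc hH, setIntegral_eq_integral_of_forall_compl_eq_zero
    fun t ht => by rw [h0 t ht, zero_mul]]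
  simp only [mul_comm (f _)]
  rw [integral_toReal_rnDeriv_mul hac, setIntegral_eq_integral_of_forall_compl_eq_zero h0]
  exact congrArg _ (RealRMK.integral_rieszMeasure (Lam H ψ) ⟨⟨f, hf⟩, hc⟩).symm

end Crest.Agent.N334.AC.E
end

-- ▼ part N334/AC/E/Main

/-!
# Row 334, S0520, part E (helper20): `EndStmt`
-/

set_option autoImplicit false

open MeasureTheory

namespace Crest.Agent.N334.AC.E

open Crest.MathPhysics.Anderson

theorem endStmt : EndStmt := by
  intro hO
  refine ⟨1 / 200, by norm_num, by norm_num, fun d hd => ?_⟩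
  obtain ⟨c₀, hc₀, h⟩ := hO d hd
  refine ⟨c₀, hc₀, fun σ hσ hσ' => ?_⟩
  obtain ⟨κ, hκ, h⟩ := h σ hσ hσ'
  have hU := vol_lim d σ hσ (pois eb d σ hσ (tight digit (by omega) hσ hκ h))
  obtain ⟨α, β, hI, hs⟩ : ∃ α β, energyWindow (1 / 200) d = Set.Ioo α β ∧ Set.Ioo α β ⊆ Win d := by
    unfold energyWindow Win
    split_ifs with h3
    · subst h3
      exact ⟨_, _, rfl, Set.Ioo_subset_Ioo (by norm_num) (by norm_num)⟩
    · exact ⟨_, _, rfl, Set.Ioo_subset_Ioo (by linarith) le_rfl⟩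
  rw [hI]
  filter_upwards [Soft.ae_mem_spectrum (d := d) (by omega) (-1) hσ,
    ae_all_iff.2 fun x => acd d σ hσ x (hU x)] with ω h1 h2
  refine ⟨fun E hE => h1 E ?_, dens d _ End.Hm_sa α β fun x ε hε => ?_⟩
  · have : (3 : ℝ) ≤ d := by exact_mod_cast hd
    have := hs hE
    rw [abs_neg, abs_one]
    exact abs_le.2 ⟨by linarith [this.1], by linarith [this.2]⟩
  · obtain ⟨δ, hδ, h3⟩ := h2 x ε hε
    exact ⟨δ, hδ, fun f hf h01 hsup => h3 f hf h01 (hsup.trans hs)⟩

end Crest.Agent.N334.AC.E
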